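import Vale.Agent.P153.R2.F2A.Sep

/-!
# P153-R2, block F2: exploration against decreasing weights

`expl_anti`: `X ≥ 0` decreasing in `|h|`, vanishing unless the cluster of `A` avoids `K₂`; `B ≥ 0`
increasing in `|h|`, depending on the heights on `K₂` only: the average of `X B` is at most the
average of `X` times the average of `B` for the free data (level `0`) in any domain which contains
the complement of `A`.
-/

namespace Vale.Agent.P153.R2.F2A

open Set Relation
open Vale.Agent.P153 Vale.Agent.P153.R2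
open Vale.Agent.P153.Topo (Conn)
open scoped Classical

variable {V V' K : Set Pt} {I J : Pt → Set ℤ}

/-! ### Free data -/

theorem frd_in {x : Pt} (hx : x ∈ V) (m : ℤ) : frd V m x = univ := if_pos hx

theorem frd_bd {x : Pt} (hx : x ∈ ebd V) (m : ℤ) : frd V m x = {m - 1, m + 1} := by
  unfold frd; rw [if_neg hx.1, if_pos hx]

theorem frd_off {x : Pt} (hx : x ∉ V) (hx' : x ∉ ebd V) (m : ℤ) : frd V m x = {m + 1} := by
  unfold frd; rw [if_neg hx, if_neg hx']

theorem frd_one (V : Set Pt) (x : Pt) : (1 : ℤ) ∈ frd V 0 x := by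
  unfold frd
  split_ifs <;> simp

theorem Dat_frd (hV : V.Finite) (m : ℤ) : Dat V (frd V m) := by
  refine ⟨hV, fun x hx => ?_, ?_⟩
  · unfold frd
    rw [if_neg hx]
    split_ifs <;> exact Set.toFinite _
  · refine (nb_finite hV).subset fun x hx => ?_
    by_contra h1
    have h2 : x ∉ V := fun h => h1 (Or.inl h)
    have h3 : x ∉ ebd V := fun h => h1 (Or.inr h)
    exact hx (by rw [frd_off h2 h3]; exact Set.subsingleton_singleton)

/-- The constant height `1`. -/
def one : Hg := fun _ => 1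

theorem one_mem (V : Set Pt) : one ∈ Cfg V (frd V 0) :=
  ⟨fun _ => odd_one, fun x => frd_one V x, fun x _ y _ => by simp [one]⟩

theorem one_clo (K : Set Pt) : one ∈ Clo K := fun _ _ _ _ _ => by simp [one]

theorem Lv_frd (hV : V.Finite) : Lv V (frd V 0) 0 1 where
  even := Even.zero
  sg := Or.inl rfl
  dI := Dat_frd hV 0
  ne := ⟨one, one_mem V⟩
  sd := fun x => by
    left
    by_cases h1 : x ∈ V
    · rw [frd_in h1]; exact Sd_univ 0 1
    · by_cases h2 : x ∈ ebd V
      · rw [frd_bd h2]; exact Sd_free 0 1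
      · rw [frd_off h1 h2]; exact Sd_single (by norm_num)

/-! ### The modulus -/

theorem md_glu (K : Set Pt) (b a : Hg) : md 0 (glu K b a) = glu K (md 0 b) (md 0 a) := by
  funext x
  unfold md
  by_cases hx : x ∈ K
  · rw [glu_in hx, glu_in hx]
  · rw [glu_out hx, glu_out hx]

theorem glu_mono (K : Set Pt) (a : Hg) {b c : Hg} (h : b ≤ c) : glu K b a ≤ glu K c a := by
  intro x
  by_cases hx : x ∈ K
  · rw [glu_in hx, glu_in hx]; exact h x
  · rw [glu_out hx, glu_out hx]

/-- Closedness as a lower set of moduli. -/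
def CloD (K : Set Pt) : Set Hg := {c | ∀ x ∈ K, ∀ y, y ∉ K → Adj x y → c x ≤ 1 ∧ c y ≤ 1}

theorem CloD_lower (K : Set Pt) : IsLowerSet (CloD K) := fun _ _ hab ha x hx y hy hxy =>
  ⟨(hab x).trans (ha x hx y hy hxy).1, (hab y).trans (ha x hx y hy hxy).2⟩

theorem abs_odd_eq {n : ℤ} (hn : Odd n) : |n| = 1 ↔ |n| ≤ 1 := by
  constructor
  · exact fun h => h.le
  · intro h
    have : n ≠ 0 := by rintro rfl; exact absurd hn (by decide)
    have := abs_pos.2 this
    omega

theorem mem_CloD {h : Hg} (hh : h ∈ Cfg V I) (K : Set Pt) : md 0 h ∈ CloD K ↔ h ∈ Clo K := by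
  have e : ∀ x, md 0 h x = |h x| := fun x => by unfold md; rw [sub_zero]
  constructor
  · intro h1 x hx y hy hxy
    have h2 := h1 x hx y hy hxy
    rw [e, e] at h2
    exact ⟨(abs_odd_eq (hh.1 x)).2 h2.1, (abs_odd_eq (hh.1 y)).2 h2.2⟩
  · intro h1 x hx y hy hxy
    have h2 := h1 x hx y hy hxy
    rw [e, e]
    exact ⟨h2.1.le, h2.2.le⟩

theorem ind_anti {A : Set Hg} (hA : IsLowerSet A) : Antitone (ind A) := by
  intro a b hab
  unfold ind
  by_cases h1 : b ∈ A
  · rw [if_pos h1, if_pos (hA hab h1)]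
  · rw [if_neg h1]; split_ifs <;> norm_num

theorem ind_nonneg {α : Type*} (A : Set α) (a : α) : 0 ≤ ind A a := by
  unfold ind; split_ifs <;> norm_num

/-- Decreasing against increasing functions, given that the edges around `K` are closed. -/
theorem clo_cov (hL : Lv V' J 0 1) (K : Set Pt) {X B : Hg → ℝ} (hX0 : ∀ a, 0 ≤ X a)
    (hX : Antitone X) (hB0 : ∀ a, 0 ≤ B a) (hB : Monotone B) :
    Ex (Cfg V' J ∩ Clo K) (fun g => X (md 0 g) * B (md 0 g)) ≤
      Ex (Cfg V' J ∩ Clo K) (fun g => X (md 0 g)) * Ex (Cfg V' J) (fun g => B (md 0 g)) := by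
  have fin := Cfg_finite hL.dI
  rcases (Cfg V' J ∩ Clo K).eq_empty_or_nonempty with h0 | h0
  · rw [h0, Ex_empty, Ex_empty, zero_mul]
  have hp : 0 < Pr (Cfg V' J) (Clo K) := by
    unfold Pr
    refine div_pos ?_ ?_
    · exact_mod_cast (Set.ncard_pos (fin.inter_of_left _)).2 h0
    · exact_mod_cast (Set.ncard_pos fin).2 hL.ne
  have key := md_cov_anti hL (X := fun a => ind (CloD K) a * X a) (B := B)
    (fun a => mul_nonneg (ind_nonneg _ _) (hX0 a))
    (fun a b hab => mul_le_mul (ind_anti (CloD_lower K) hab) (hX hab) (hX0 _) (ind_nonneg _ _))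
    hB0 hB (k := 0) (Z := ∅) (fun x hx => absurd hx (Finset.notMem_empty x)) (φ := fun _ _ => 0)
    (fun i => i.elim0)
  simp only [pm_zero, mul_one] at key
  have e : ∀ F : Hg → ℝ, Ex (Cfg V' J) (fun g => ind (CloD K) (md 0 g) * F g) =
      Pr (Cfg V' J) (Clo K) * Ex (Cfg V' J ∩ Clo K) F := by
    intro F
    rw [Ex_inter_mul fin]
    refine Ex_congr fun g hg => ?_
    congr 1
    unfold ind
    by_cases h1 : g ∈ Clo K
    · rw [if_pos h1, if_pos ((mem_CloD hg K).2 h1)]
    · rw [if_neg h1, if_neg fun h2 => h1 ((mem_CloD hg K).1 h2)]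
  have e1 := e (fun g => X (md 0 g) * B (md 0 g))
  have e2 := e (fun g => X (md 0 g))
  simp only [mul_assoc] at key
  rw [e1, e2, mul_assoc] at key
  exact le_of_mul_le_mul_left key hp

/-- **Exploration of the cluster of `A`**, against decreasing weights. -/
theorem expl_anti (dI : Dat V I) (hV'f : V'.Finite) {A K₂ : Set Pt} (hI : ∀ x, x ∉ A → I x = univ)
    (hV : Aᶜ ⊆ V) (hV' : Aᶜ ⊆ V') {X B : Hg → ℝ} (hX0 : ∀ a, 0 ≤ X a) (hX : Antitone X)
    (hB0 : ∀ a, 0 ≤ B a) (hB : Monotone B)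
    (hBl : ∀ a b : Hg, (∀ x ∈ K₂, a x = b x) → B a = B b)
    (hXd : ∀ h ∈ Cfg V I, X (md 0 h) ≠ 0 → Disjoint (CluL 0 A h) K₂) :
    Ex (Cfg V I) (fun h => X (md 0 h) * B (md 0 h)) ≤
      Ex (Cfg V I) (fun h => X (md 0 h)) * Ex (Cfg V' (frd V' 0)) (fun h => B (md 0 h)) := by
  set m : ℝ := Ex (Cfg V' (frd V' 0)) (fun h => B (md 0 h)) with hm
  have hL := Lv_frd hV'f
  have key : Ex (Cfg V I) (fun h => X (md 0 h) * B (md 0 h) - m * X (md 0 h)) ≤
      Ex (Cfg V I) (fun _ => 0) := by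
    refine Ex_le_of_fiber (Cfg_finite dI) (fmap A) _ _ (fun _ _ _ _ _ => rfl) fun a ha => ?_
    rw [fib_eq_fmap]
    by_cases hd : Disjoint (CluL 0 A a) K₂
    · rw [fib_Ex dI (Dat_frd hV'f 0) hI (fun x hx => frd_in (hV' hx) 0) hV hV' ha
        ⟨one, one_mem V', one_clo _⟩]
      set G : Set Pt := (CluL 0 A a)ᶜ with hG
      have hKG : K₂ ⊆ G := fun x hx hxA => (Set.disjoint_left.1 hd) hxA hx
      have e : ∀ b : Hg, X (md 0 (glu G b a)) * B (md 0 (glu G b a)) - m * X (md 0 (glu G b a)) =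
          X (glu G (md 0 b) (md 0 a)) * B (md 0 b) - m * X (glu G (md 0 b) (md 0 a)) := by
        intro b
        have h1 : B (md 0 (glu G b a)) = B (md 0 b) := hBl _ _ fun x hx => by
          rw [md_glu, glu_in (hKG hx)]
        rw [h1, md_glu]
      have h2 := clo_cov hL G (X := fun c => X (glu G c (md 0 a))) (B := B)
        (fun c => hX0 _) (fun b c hbc => hX (glu_mono G _ hbc)) hB0 hB
      rw [Ex_congr (fun b _ => e b), Ex_sub, Ex_const_mul]
      linarith
    · have e : Ex (Cfg V I ∩ fib A a) (fun h => X (md 0 h) * B (md 0 h) - m * X (md 0 h)) =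
          Ex (Cfg V I ∩ fib A a) (fun _ => 0) := by
        refine Ex_congr fun b hb => ?_
        have h1 : X (md 0 b) = 0 := by
          by_contra hne
          have := hXd b hb.1 hne
          rw [hb.2.1] at this
          exact hd this
        rw [h1, zero_mul, mul_zero, sub_zero]
      rw [e, Ex_zero]
  rw [Ex_sub, Ex_const_mul, Ex_zero] at key
  linarith

end Vale.Agent.P153.R2.F2A
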