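import Vale.Agent.P153.R2.F2.Stmt640
import Vale.Agent.P153.R2.F2A.Expl

/-!
# P153-R2, block F2: one arm, definitions and statements

* `evS S η`: the event `h = η` on `S`; `nu K S η`: its probability for free data (level `0`) in `K`.
* `Sh L S r₁ r₂`: no path with `|h| ≥ 2 L + 3` from `thk S r₁` to the complement of `thk S r₂`.
* `inner_le`: comparison of two ensembles through the probabilities of `Clo κ`.
-/

namespace Vale.Agent.P153.R2.F2A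

open Set Relation
open Vale.Agent.P153 Vale.Agent.P153.R2
open Vale.Agent.P153.Topo (Conn)
open Vale.Agent.P153.R2.F2 (thk NoCr Cx RV Bdd OneS)
open scoped Classical

/-- The event `h = η` on `S`. -/
def evS (S : Set Pt) (η : Hg) : Set Hg := {h | ∀ x ∈ S, h x = η x}

/-- The probability of `h = η` on `S` for free data (level `0`) in `K`. -/
noncomputable def nu (K S : Set Pt) (η : Hg) : ℝ := Pr (Cfg K (frd K 0)) (evS S η)

/-- The shield. -/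
def Sh (L : ℕ) (S : Set Pt) (r₁ r₂ : ℤ) : Set Hg :=
  {h | NoCr {x | 2 * (L : ℤ) + 3 ≤ |h x|} (thk S r₁) (thk S r₂)}

/-- ONE-ARM. -/
def S_onearm : Prop := ∀ (R s₀ : ℤ) (c : ℝ), 1 ≤ R → 1 ≤ s₀ → 0 < c → OneS R s₀ c →
  ∀ (ρ : ℤ) (L : ℕ), ∃ (C : ℝ) (k : ℤ), 0 < C ∧ 1 ≤ k ∧ ∀ s, s₀ ≤ s → ∀ (q : Pt) (S V : Set Pt)
    (η ξ : Hg) (r : ℤ), S ⊆ bx q (ρ * s) → (∀ x ∈ S, |η x| + 2 ≤ 2 * L + 1) → k * s ≤ r →
    3 * r ≤ ρ * s → V.Finite → thk S (3 * r) ⊆ V → (Cx V ξ).Nonempty →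
    Pr (Cx V ξ) (evS S η ∩ Sh L S (2 * r) (3 * r - 1)) ≤ C * nu (thk S r) S η

/-! ### Inner clusters -/

/-- The part of `evS S η ∩ {CluL 0 S h = κ}` which is determined by the heights on `κ`. -/
def Bk (S κ : Set Pt) (η : Hg) : Set Hg := evS S η ∩ Tk S κ

theorem inner_eq {S κ : Set Pt} {η : Hg} (hS : S ⊆ κ) :
    {h | h ∈ evS S η ∧ CluL 0 S h = κ} = Clo κ ∩ Bk S κ η := by
  ext h
  constructor
  · rintro ⟨h1, h2⟩
    obtain ⟨-, h3, h4⟩ := clu_iff.1 h2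
    exact ⟨h3, h1, h4⟩
  · rintro ⟨h1, h2, h3⟩
    exact ⟨h2, clu_iff.2 ⟨hS, h1, h3⟩⟩

theorem Bk_congr {S κ : Set Pt} {η : Hg} (hS : S ⊆ κ) {a b : Hg} (hab : ∀ x ∈ κ, a x = b x) :
    ind (Bk S κ η) a = ind (Bk S κ η) b := by
  have key : ∀ a b : Hg, (∀ x ∈ κ, a x = b x) → a ∈ Bk S κ η → b ∈ Bk S κ η := by
    rintro a b hab ⟨h1, h2⟩
    exact ⟨fun x hx => by rw [← hab x (hS hx)]; exact h1 x hx, Tk_congr hab h2⟩
  unfold ind
  by_cases h1 : a ∈ Bk S κ η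
  · rw [if_pos h1, if_pos (key a b hab h1)]
  · rw [if_neg h1, if_neg fun h2 => h1 (key b a (fun x hx => (hab x hx).symm) h2)]

variable {V V' : Set Pt} {I J : Pt → Set ℤ}

/-- Comparison of two ensembles: if the probability of `Clo κ` is at most `c` times larger for all
`κ` between `S` and `T`, the same holds for `h = η` on `S` together with the confinement in `T`. -/
theorem inner_le (dI : Dat V I) (dJ : Dat V' J) {D D' : Set Hg} {S T : Set Pt} (hT : T.Finite)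
    (hD : OffDet T D) (hD' : OffDet T D') (hIJ : ∀ x ∈ T, I x = J x) (hV : T ⊆ V) (hV' : T ⊆ V')
    (η : Hg) {c : ℝ} (hc : 0 ≤ c) (h : ∀ κ, S ⊆ κ → κ ⊆ T →
      Pr (Cfg V I ∩ D) (Clo κ) ≤ c * Pr (Cfg V' J ∩ D') (Clo κ)) :
    Pr (Cfg V I ∩ D) {g | g ∈ evS S η ∧ CluL 0 S g ⊆ T} ≤
      c * Pr (Cfg V' J ∩ D') {g | g ∈ evS S η ∧ CluL 0 S g ⊆ T} := by
  have fI : (Cfg V I ∩ D).Finite := (Cfg_finite dI).inter_of_left _
  have fJ : (Cfg V' J ∩ D').Finite := (Cfg_finite dJ).inter_of_left _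
  have hKf : {κ : Set Pt | S ⊆ κ ∧ κ ⊆ T}.Finite := hT.finite_subsets.subset fun κ hκ => hκ.2
  set 𝒦 : Finset (Set Pt) := hKf.toFinset with h𝒦
  have mem𝒦 : ∀ κ, κ ∈ 𝒦 ↔ S ⊆ κ ∧ κ ⊆ T := fun κ => by
    rw [h𝒦, Set.Finite.mem_toFinset]; rfl
  have split : ∀ g : Hg, ind {g | g ∈ evS S η ∧ CluL 0 S g ⊆ T} g =
      ∑ κ ∈ 𝒦, ind (Clo κ ∩ Bk S κ η) g := by
    intro g
    by_cases hg : g ∈ evS S η ∧ CluL 0 S g ⊆ T
    · rw [Finset.sum_eq_single (CluL 0 S g)]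
      · have h1 : g ∈ Clo (CluL 0 S g) ∩ Bk S (CluL 0 S g) η := by
          rw [← inner_eq (subset_CluL S g)]
          exact ⟨hg.1, rfl⟩
        unfold ind
        rw [if_pos (show g ∈ {g | g ∈ evS S η ∧ CluL 0 S g ⊆ T} from hg), if_pos h1]
      · intro κ hκ hne
        unfold ind
        rw [if_neg]
        intro h1
        rw [← inner_eq ((mem𝒦 κ).1 hκ).1] at h1
        exact hne h1.2.symm
      · intro h1
        exact absurd ((mem𝒦 _).2 ⟨subset_CluL S g, hg.2⟩) h1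
    · symm
      unfold ind
      rw [if_neg (show ¬ g ∈ {g | g ∈ evS S η ∧ CluL 0 S g ⊆ T} from hg)]
      refine Finset.sum_eq_zero fun κ hκ => if_neg fun h1 => hg ?_
      rw [← inner_eq ((mem𝒦 κ).1 hκ).1] at h1
      exact ⟨h1.1, by rw [h1.2]; exact ((mem𝒦 κ).1 hκ).2⟩
  rw [Pr_eq_Ex fI, Pr_eq_Ex fJ, Ex_congr fun g _ => split g, Ex_congr (S := Cfg V' J ∩ D')
    fun g _ => split g, Ex_sum, Ex_sum, Finset.mul_sum]
  refine Finset.sum_le_sum fun κ hκ => ?_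
  obtain ⟨hSκ, hκT⟩ := (mem𝒦 κ).1 hκ
  have e : ∀ (A : Set Hg) (hA : A.Finite), Ex A (ind (Clo κ ∩ Bk S κ η)) =
      Pr A (Clo κ) * Ex (A ∩ Clo κ) (ind (Bk S κ η)) := by
    intro A hA
    rw [Ex_inter_mul hA]
    refine Ex_congr fun g _ => ?_
    unfold ind
    by_cases h1 : g ∈ Clo κ <;> by_cases h2 : g ∈ Bk S κ η <;> simp [h1, h2]
  show Ex _ (ind (Clo κ ∩ Bk S κ η)) ≤ c * Ex _ (ind (Clo κ ∩ Bk S κ η))
  rw [e _ fI, e _ fJ]
  have h0 : 0 ≤ Ex ((Cfg V' J ∩ D') ∩ Clo κ) (ind (Bk S κ η)) :=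
    Ex_nonneg fun g _ => ind_nonneg _ _
  rcases ((Cfg V I ∩ D) ∩ Clo κ).eq_empty_or_nonempty with h1 | h1
  · rw [h1, Ex_empty, mul_zero]
    exact mul_nonneg hc (mul_nonneg (Pr_nonneg _ _) h0)
  · have hp : 0 < Pr (Cfg V I ∩ D) (Clo κ) := by
      unfold Pr
      refine div_pos ?_ ?_
      · exact_mod_cast (Set.ncard_pos (fI.inter_of_left _)).2 h1
      · exact_mod_cast (Set.ncard_pos fI).2 ⟨_, h1.some_mem.1⟩
    have h2 : ((Cfg V' J ∩ D') ∩ Clo κ).Nonempty := by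
      by_contra hne
      rw [Set.not_nonempty_iff_eq_empty] at hne
      have h3 : Pr (Cfg V' J ∩ D') (Clo κ) = 0 := by unfold Pr; rw [hne]; simp
      have := h κ hSκ hκT
      rw [h3, mul_zero] at this
      exact absurd this (not_le.2 hp)
    have hoff : ∀ {D : Set Hg}, OffDet T D → OffDet κ D := fun hD a ha b hb =>
      hD a ha b fun x hx => hb x fun h4 => hx (hκT h4)
    have e1 : (Cfg V I ∩ D) ∩ Clo κ = Cfg V I ∩ (Clo κ ∩ D) := by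
      rw [inter_assoc, inter_comm D]
    have e2 : (Cfg V' J ∩ D') ∩ Clo κ = Cfg V' J ∩ (Clo κ ∩ D') := by
      rw [inter_assoc, inter_comm D']
    have key : Ex ((Cfg V I ∩ D) ∩ Clo κ) (ind (Bk S κ η)) =
        Ex ((Cfg V' J ∩ D') ∩ Clo κ) (ind (Bk S κ η)) := by
      rw [e1, e2]
      rw [e1] at h1
      rw [e2] at h2
      exact sep dI dJ (fun x hx => hIJ x (hκT hx)) (fun x hx _ _ _ _ => Or.inl (hV' (hκT hx)))
        (fun x hx _ _ _ _ => Or.inl (hV (hκT hx))) (hoff hD) (hoff hD') h1 h2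
        fun a b hab => Bk_congr hSκ hab
    rw [key, ← mul_assoc]
    exact mul_le_mul_of_nonneg_right (h κ hSκ hκT) h0

end Vale.Agent.P153.R2.F2A
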