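import Vale.Agent.P153.R2.F2A.LcA
import Vale.Agent.P153.R2.RDEC.P2

/-!
# P153-R2, block F2: `S_lc` (F2.1)

In a box with free data at level `0` there is, with probability at least one half, no path of
vertices with `|h| = 1` from the concentric box of relative size `1 / R` to the boundary.
-/

namespace Vale.Agent.P153.R2.F2A

open Set Relation MeasureTheory Filter Topology
open Vale.Agent.P153 Vale.Agent.P153.R2
open Vale.Agent.P153.F (muT)
open Vale.Agent.P153.F.X (Zr bl II)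
open Vale.Agent.P153.F.RSW (Ann pW)
open Vale.Agent.P153.R2.F2 (NoCr)
open scoped Classical

theorem ind_mul_ind (Q Q' : Set Pt → Prop) (B : Set Pt) :
    F.X.ind Q B * F.X.ind Q' B = F.X.ind (fun B => Q B ∧ Q' B) B := by
  unfold F.X.ind
  by_cases h1 : Q B <;> by_cases h2 : Q' B <;> simp [h1, h2]

/-- The box statement. -/
theorem s_lc {Q : Measure A.Om} {κ : ℝ} (hQ : A.IsQ Q) (hP : GFF.Plane (Q.map A.rc))
    (hS : GFF.SpecOut (Q.map A.rc) κ) (hC : GFF.RowCLT (Q.map A.rc) κ) (hκ : 0 < κ) : F2.S_lc := by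
  have lvl := F.lvl_of hQ hP hS hC hκ
  obtain ⟨c₁, hc₁, r₁, hr₁, hrsw⟩ := lvl.rsw
  obtain ⟨c₂, hc₂, r₂, hann⟩ := F.RSW.r1_ann hQ (F.RSW.AC.acT hP hS hC hκ)
  have hε : 0 < c₁ * c₂ / 2 := by positivity
  obtain ⟨M, hM1, hM⟩ := RDEC.two_scale hP hS hC hκ hε
  obtain ⟨s₀, hs₀, h2⟩ := hM M le_rfl
  have hMz : (1 : ℤ) ≤ M := by exact_mod_cast hM1
  refine ⟨4 * M, max s₀ (max r₁ r₂), by omega, le_max_of_le_left hs₀, fun s hs p => ?_⟩
  have hs1 : s₀ ≤ s := (le_max_left _ _).trans hs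
  have hs2 : r₁ ≤ s := ((le_max_left _ _).trans (le_max_right _ _)).trans hs
  have hs3 : r₂ ≤ s := ((le_max_right _ _).trans (le_max_right _ _)).trans hs
  have hs4 : 1 ≤ s := hs₀.trans hs1
  have hr' : 2 * s ≤ 2 * M * s := by nlinarith
  have hR : 2 * (2 * (M : ℤ) * s) = 4 * M * s := by ring
  set V : Set Pt := bx p (4 * M * s) with hV
  have hVf : V.Finite := bx_finite _ _
  have fin := Cfg_finite (Dat_frd hVf 0)
  have k1 := II_expl hP (p := p) (r := 2 * M * s) (s := s) hs4 hr' (V' := V) hVf (by rw [hR])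
  have k2 := hrsw (2 * M * s) (hs2.trans (by nlinarith)) p
  have k3 : II (Q.map A.rc) (fun B => F.X.ind (Zr p (2 * M * s)) B * F.X.ind (Zr p s) B)
      (fun _ => 1) ≤ c₁ * c₂ / 2 := by
    simp only [ind_mul_ind]
    have hm : MeasurableSet {h : Hg | Zr p (2 * M * s) (bl h) ∧ Zr p s (bl h)} :=
      (F.X.meas_ZE p (r := 2 * M * s) (by omega)).inter (F.X.meas_ZE p hs4)
    rw [F.X.II_ind hm]
    have h3 := h2 s hs1 p
    have h4 : (F.X.ZE p s ∩ F.X.ZE p (2 * M * s)) =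
        {h : Hg | Zr p (2 * M * s) (bl h) ∧ Zr p s (bl h)} := by
      ext h; exact and_comm
    rw [h4] at h3
    unfold Measure.real
    exact ENNReal.toReal_le_of_le_ofReal hε.le h3
  have k4 := hann s hs3 p.1 p.2
  have k5 := fkg_box hQ (p := p) (s := s) (r := 4 * M * s) (by omega) (by nlinarith)
  set x := Pr (Cfg V (frd V 0)) {h | Zr p s (bl h)} with hx
  set y := Pr (Cfg V (frd V 0)) {h | ¬ NoCr {x | |h x| = 1} (bx p s) V} with hy
  have k6 : Pr (Cfg V (frd V 0)) {h | NoCr {x | |h x| = 1} (bx p s) V} + y = 1 :=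
    Pr_add_compl fin ⟨one, one_mem V⟩ {h | NoCr {x | |h x| = 1} (bx p s) V}
  have hx0 : 0 ≤ x := Pr_nonneg _ _
  have hy0 : 0 ≤ y := Pr_nonneg _ _
  have k7 : x * c₁ ≤ c₁ * c₂ / 2 := (mul_le_mul_of_nonneg_left k2.1 hx0).trans (k1.trans k3)
  have k8 : c₂ * y ≤ x := (mul_le_mul_of_nonneg_right k4 hy0).trans k5
  have k9 : x ≤ c₂ / 2 := by
    have : x * c₁ ≤ c₂ / 2 * c₁ := by linarith
    exact le_of_mul_le_mul_right this hc₁
  have k10 : y ≤ 1 / 2 := by
    have : c₂ * y ≤ c₂ * (1 / 2) := by linarith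
    exact le_of_mul_le_mul_left this hc₂
  show 1 / 2 ≤ Pr (Cfg V (frd V 0)) {h | NoCr {x | |h x| = 1} (bx p s) V}
  linarith

end Vale.Agent.P153.R2.F2A
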