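import Vale.Agent.P153.R2.F2A.LcB
import Vale.Agent.P153.R2.F2.Sign
import Vale.Agent.P153.Bd5.B29

/-!
# P153-R2, block F2: association of the first spin in a box with free data

`fkg_box`: `P(circuits in Ann p s) * P(a path with |h| = 1 from bx p s to the boundary of the box)` is
at most the probability of the circuit `Zr p s` at level `0`.
-/

namespace Vale.Agent.P153.R2.F2A

open Set Relation MeasureTheory Filter Topology
open Vale.Agent.P153 Vale.Agent.P153.R2
open Vale.Agent.P153.Topo (Conn)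
open Vale.Agent.P153.F.X (Zr bl)
open Vale.Agent.P153.F.RSW (Ann Mid Wp v1 v2 pW SepG)
open Vale.Agent.P153.F.X.PosT (mid_adj v_add share)
open Vale.Agent.P153.A (Sp IsQ enc tau)
open Vale.Agent.P153.R2.F2 (NoCr)
open scoped Classical

/-! ### Paths in the fine lattice -/

/-- The vertices and the edges of `S` in the fine lattice. -/
def fine (S : Set Pt) : Set Pt :=
  {z | (∃ x ∈ S, z = x + x) ∨ ∃ x ∈ S, ∃ y ∈ S, Adj x y ∧ z = x + y}

theorem adj_add_left {x y : Pt} (h : Adj x y) (z : Pt) : Adj (z + x) (z + y) := by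
  rw [Topo.adj_iff] at h ⊢
  simp only [Prod.fst_add, Prod.snd_add]
  omega

theorem fine_conn {S : Set Pt} {x y : Pt} (h : Conn S x y) : Conn (fine S) (x + x) (y + y) := by
  refine Conn.ind (fun y => Conn (fine S) (x + x) (y + y)) (Conn.refl (Or.inl ⟨x, h.left_mem, rfl⟩))
    (fun u v hu huv hv ih => ?_) h
  have h1 : u + v ∈ fine S := Or.inr ⟨u, hu.right_mem, v, hv, huv, rfl⟩
  have h2 : v + v ∈ fine S := Or.inl ⟨v, hv, rfl⟩
  have h3 : Adj (u + v) (v + v) := by
    have := adj_add_left huv v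
    rwa [add_comm v u] at this
  exact (ih.tail (adj_add_left huv u) h1).tail h3 h2

/-! ### Levels -/

/-- The first spin of heights. -/
def tf (φ : Pt → ℤ) : Sp := fun x => (enc (φ x)).1

theorem tf_iff {φ : Pt → ℤ} {x : Pt} : tf φ x = true ↔ φ x % 4 = 0 ∨ φ x % 4 = 1 := by
  unfold tf enc
  simp

theorem lev_tf {φ : Pt → ℤ} (hφ : ∀ x y, Adj x y → |φ x - φ y| ≤ 1) :
    F.RSW.Lev (Wp (tf φ)) (fun z => φ (v1 z) / 4) := by
  have key : ∀ {x y : Pt}, tf φ x = true → tf φ y = true → Adj x y → φ x / 4 = φ y / 4 := by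
    intro x y hx hy hxy
    rw [tf_iff] at hx hy
    have := abs_le.1 (hφ x y hxy)
    omega
  have e : ∀ {z : Pt}, z ∈ Wp (tf φ) → φ (v1 z) / 4 = φ (v2 z) / 4 := fun hz =>
    key hz.2.1 hz.2.2 (mid_adj hz.1)
  intro u v huv hu hv
  show φ (v1 u) / 4 = φ (v1 v) / 4
  rcases share hu.1 hv.1 huv with h1 | h1 | h1 | h1
  · rw [h1]
  · rw [h1, e hv]
  · rw [e hu, h1]
  · rw [e hu, e hv, h1]

/-- The absolute heights. -/
def hh (φ : Pt → ℤ) : Hg := fun x => 1 - 2 * φ x

theorem hh_abs {φ : Pt → ℤ} {x : Pt} : |hh φ x| = 1 ↔ φ x = 0 ∨ φ x = 1 := by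
  unfold hh
  constructor
  · intro h
    rcases (abs_eq (by norm_num : (0 : ℤ) ≤ 1)).1 h with h1 | h1 <;> omega
  · rintro (h | h) <;> rw [h] <;> norm_num

/-- A circuit of closed edges of the first spin and a path of the first spin which starts at level
`0` give a circuit at level `0`. -/
theorem circ {φ : Pt → ℤ} (hφ : ∀ x y, Adj x y → |φ x - φ y| ≤ 1) {p : Pt} {s : ℤ} (hs : 0 < s)
    (hA : Ann p.1 p.2 s (Wp (tf φ))) {a b : Pt} (ha : a ∈ bx p s) (hb : b ∉ bx p (2 * s))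
    (hb0 : |hh φ b| = 1) (hab : Conn {x | tf φ x = true} a b) : Zr p s (bl (hh φ)) := by
  -- the path is at level 0
  have h0 : Conn {x | |hh φ x| = 1} b a := by
    refine Conn.ind (fun y => Conn {x | |hh φ x| = 1} b y) (Conn.refl hb0)
      (fun u v hu huv hv ih => ?_) hab.symm
    refine ih.tail huv ?_
    have h1 : φ u = 0 ∨ φ u = 1 := hh_abs.1 ih.right_mem
    have h2 : φ v % 4 = 0 ∨ φ v % 4 = 1 := tf_iff.1 hv
    have h3 := abs_le.1 (hφ u v huv)
    exact hh_abs.2 (by omega)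
  obtain ⟨o, ho⟩ := hA.base hs
  have hsep := ho.sep hs
  have hb' : ¬ (|b.1 - p.1| ≤ 2 * s ∧ |b.2 - p.2| ≤ 2 * s) := hb
  have ha1 := abs_le.1 ha.1
  have ha2 := abs_le.1 ha.2
  obtain ⟨z, hz1, hz2⟩ := hsep (fine {x | |hh φ x| = 1}) (a + a) (b + b) (fine_conn h0.symm)
    (by
      show 2 * (p.1 - s) ≤ (a + a).1 ∧ (a + a).1 ≤ 2 * (p.1 + s) ∧ 2 * (p.2 - s) ≤ (a + a).2 ∧
        (a + a).2 ≤ 2 * (p.2 + s)
      simp only [Prod.fst_add, Prod.snd_add]
      omega)
    (by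
      simp only [Prod.fst_add, Prod.snd_add]
      rw [not_and_or, not_le, not_le] at hb'
      rcases hb' with h | h
      · rcases lt_abs.1 h with h | h <;> omega
      · rcases lt_abs.1 h with h | h <;> omega)
  have hzW : z ∈ Wp (tf φ) := hz2.right_mem.1
  have hzl : φ (v1 z) / 4 = 0 := by
    have hodd := F.X.PosT.mid_odd hzW.1
    rcases hz1 with ⟨x, -, hx⟩ | ⟨x, hx, y, hy, hxy, hz⟩
    · exfalso
      rw [hx] at hodd
      simp only [Prod.fst_add, Prod.snd_add] at hodd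
      omega
    · have h1 := F.X.LE.edge_eq (mid_adj hzW.1) hxy ((v_add z).symm.trans hz)
      have hx' : φ x = 0 ∨ φ x = 1 := hh_abs.1 hx
      have hy' : φ y = 0 ∨ φ y = 1 := hh_abs.1 hy
      rcases h1 with ⟨h1, -⟩ | ⟨-, h1⟩
      · rw [← h1]; omega
      · rw [← h1]; omega
  have hl := lev_tf hφ
  have ho0 : φ (v1 o) / 4 = 0 := by
    have := F.RSW.c_lev (hl.mono (Set.inter_subset_left (t := F.RSW.annR p.1 p.2 s))) hz2
    exact this.symm.trans hzl
  have h4 := (ho.to_lev hl).ann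
  refine (F.RSW.IL_Ann p.1 p.2 s).1 _ _ ?_ h4
  rintro w ⟨hw1, hw2⟩
  have hw2' : φ (v1 w) / 4 = 0 := hw2.trans ho0
  have k1 := tf_iff.1 hw1.2.1
  have k2 := tf_iff.1 hw1.2.2
  have k3 := abs_le.1 (hφ _ _ (mid_adj hw1.1))
  exact ⟨⟨v1 w, v2 w, mid_adj hw1.1, v_add w, hh_abs.2 (by omega), hh_abs.2 (by omega)⟩, hw1.1⟩

/-! ### The box -/

/-- The box with its neighbours. -/
noncomputable def bD (p : Pt) (r : ℤ) : Finset Pt := (nb_finite (bx_finite p r)).toFinset

theorem mem_bD {p : Pt} {r : ℤ} {x : Pt} : x ∈ bD p r ↔ x ∈ nb (bx p r) := by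
  rw [bD, Set.Finite.mem_toFinset]

theorem mem_nb_bx {p : Pt} {r : ℤ} {x : Pt} (hx : x ∈ nb (bx p r)) : x ∈ bx p (r + 1) ∧
    ¬ (x.1 - p.1 = r + 1 ∧ x.2 - p.2 = r + 1) ∧ ¬ (x.1 - p.1 = -(r + 1) ∧ x.2 - p.2 = -(r + 1)) := by
  have key : ∀ y : Pt, y ∈ bx p r → ∀ x, (x = y ∨ Adj y x) → x ∈ bx p (r + 1) ∧
      ¬ (x.1 - p.1 = r + 1 ∧ x.2 - p.2 = r + 1) ∧
      ¬ (x.1 - p.1 = -(r + 1) ∧ x.2 - p.2 = -(r + 1)) := by
    rintro y ⟨h1, h2⟩ x hx
    rw [abs_le] at h1 h2
    have h3 : x = y ∨ _ := hx.imp_right Topo.adj_iff.1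
    unfold bx
    rw [Set.mem_ofPred_eq, abs_le, abs_le]
    rcases h3 with h3 | h3
    · rw [h3]; omega
    · omega
  rcases hx with hx | ⟨-, y, hy, hxy⟩
  · exact key x hx x (Or.inl rfl)
  · exact key y hy x (Or.inr hxy)

theorem mem_nb_bx' {p : Pt} {r : ℤ} (hr : 0 ≤ r) {x : Pt} (h0 : x ∈ bx p (r + 1))
    (h1 : ¬ (x.1 - p.1 = r + 1 ∧ x.2 - p.2 = r + 1))
    (h2 : ¬ (x.1 - p.1 = -(r + 1) ∧ x.2 - p.2 = -(r + 1))) : x ∈ nb (bx p r) := by
  by_cases hx : x ∈ bx p r
  · exact Or.inl hx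
  · refine Or.inr ⟨hx, ?_⟩
    obtain ⟨a, b⟩ := x
    unfold bx at h0 hx
    rw [Set.mem_ofPred_eq, abs_le, abs_le] at h0 hx
    simp only at h0 h1 h2 hx
    have key : ∀ c d : ℤ, (|c - p.1| ≤ r ∧ |d - p.2| ≤ r) → Adj (c, d) (a, b) →
        ∃ x ∈ bx p r, Adj x (a, b) := fun c d hcd h => ⟨(c, d), hcd, h⟩
    by_cases h3 : a - p.1 = r + 1
    · by_cases h4 : b - p.2 = -(r + 1)
      · exact key (a - 1) (b + 1) (by rw [abs_le, abs_le]; omega) (by rw [Topo.adj_iff]; simp)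
      · exact key (a - 1) b (by rw [abs_le, abs_le]; omega) (by rw [Topo.adj_iff]; simp)
    · by_cases h5 : a - p.1 = -(r + 1)
      · by_cases h4 : b - p.2 = r + 1
        · exact key (a + 1) (b - 1) (by rw [abs_le, abs_le]; omega) (by rw [Topo.adj_iff]; simp)
        · exact key (a + 1) b (by rw [abs_le, abs_le]; omega) (by rw [Topo.adj_iff]; simp)
      · by_cases h4 : b - p.2 = r + 1
        · exact key a (b - 1) (by rw [abs_le, abs_le]; omega) (by rw [Topo.adj_iff]; simp)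
        · exact key a (b + 1) (by rw [abs_le, abs_le]; omega) (by rw [Topo.adj_iff]; simp)

/-- A boundary vertex has a neighbour outside. -/
theorem ebd_out {p : Pt} {r : ℤ} {x : Pt} (hx : x ∉ bx p r) :
    ∃ w, Adj x w ∧ w ∉ nb (bx p r) := by
  obtain ⟨a, b⟩ := x
  have hx' : ¬ (|a - p.1| ≤ r ∧ |b - p.2| ≤ r) := hx
  rw [abs_le, abs_le] at hx'
  have key : ∀ c d : ℤ, Adj (a, b) (c, d) → ¬ (|c - p.1| ≤ r + 1 ∧ |d - p.2| ≤ r + 1) →
      ∃ w, Adj (a, b) w ∧ w ∉ nb (bx p r) := fun c d h h1 =>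
    ⟨(c, d), h, fun h2 => h1 (mem_nb_bx h2).1⟩
  by_cases h1 : r < a - p.1
  · exact key (a + 1) b (by rw [Topo.adj_iff]; simp) (by rw [abs_le, abs_le]; omega)
  · by_cases h2 : a - p.1 < -r
    · exact key (a - 1) b (by rw [Topo.adj_iff]; simp) (by rw [abs_le, abs_le]; omega)
    · by_cases h3 : r < b - p.2
      · exact key a (b + 1) (by rw [Topo.adj_iff]; simp) (by rw [abs_le, abs_le]; omega)
      · exact key a (b - 1) (by rw [Topo.adj_iff]; simp) (by rw [abs_le, abs_le]; omega)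

theorem cc_bD {p : Pt} {r : ℤ} (hr : 0 ≤ r) : A.Cc (bD p r) := by
  have hsub : ∀ x, x ∉ bx p (r + 1) → x ∉ nb (bx p r) := fun x hx h => hx (mem_nb_bx h).1
  have h1 : ∀ x, x ∉ nb (bx p r) → ∃ y, y ∉ bx p (r + 1) ∧ Conn (nb (bx p r))ᶜ x y := by
    intro x hx
    by_cases h2 : x ∈ bx p (r + 1)
    · have h2' := h2
      unfold bx at h2'
      rw [Set.mem_ofPred_eq, abs_le, abs_le] at h2'
      by_cases h3 : x.1 - p.1 = r + 1 ∧ x.2 - p.2 = r + 1
      · have hy : (x.1 + 1, x.2) ∉ bx p (r + 1) := by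
          unfold bx
          rw [Set.mem_ofPred_eq, abs_le]
          simp only
          omega
        exact ⟨(x.1 + 1, x.2), hy, Conn.of_adj hx (hsub _ hy) (by rw [Topo.adj_iff]; simp)⟩
      · by_cases h4 : x.1 - p.1 = -(r + 1) ∧ x.2 - p.2 = -(r + 1)
        · have hy : (x.1 - 1, x.2) ∉ bx p (r + 1) := by
            unfold bx
            rw [Set.mem_ofPred_eq, abs_le]
            simp only
            omega
          exact ⟨(x.1 - 1, x.2), hy, Conn.of_adj hx (hsub _ hy) (by rw [Topo.adj_iff]; simp)⟩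
        · exact absurd (mem_nb_bx' hr h2 h3 h4) hx
    · exact ⟨x, h2, Conn.refl hx⟩
  intro x y hx hy
  rw [mem_bD] at hx hy
  obtain ⟨x', hx', hxx⟩ := h1 x hx
  obtain ⟨y', hy', hyy⟩ := h1 y hy
  have h5 : Conn (nb (bx p r))ᶜ x' y' := (F2.cc_bx p (r + 1) hx' hy').mono fun z hz => hsub z hz
  have e : ((bD p r : Finset Pt) : Set Pt) = nb (bx p r) := by
    ext z; exact mem_bD
  rw [e]
  exact (hxx.trans h5).trans hyy.symm

/-- Heights in the box: the two descriptions. -/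
theorem bij_bD {p : Pt} {r : ℤ} : BijOn hh (GFF.Ht (bD p r)) (Cfg (bx p r) (frd (bx p r) 0)) := by
  refine ⟨?_, ?_, ?_⟩
  · rintro φ ⟨h1, h2⟩
    refine ⟨fun x => ⟨-φ x, by unfold hh; ring⟩, fun x => ?_, fun x _ y hxy => ?_⟩
    · by_cases hx : x ∈ bx p r
      · rw [frd_in hx]; exact Set.mem_univ _
      · by_cases hx' : x ∈ ebd (bx p r)
        · rw [frd_bd hx']
          obtain ⟨w, hw, hw'⟩ := ebd_out hx
          have h3 := (h1 x).2 ⟨w, hw, fun h4 => hw' (mem_bD.1 h4)⟩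
          unfold hh
          rcases h3 with h3 | h3 <;> rw [h3] <;> simp
        · rw [frd_off hx hx']
          have h3 := (h1 x).1 (fun h4 => by
            rcases mem_bD.1 h4 with h5 | h5
            · exact hx h5
            · exact hx' h5)
          unfold hh
          rw [h3]; simp
    · have := abs_le.1 (h2 x y hxy)
      unfold hh
      rw [abs_le]
      omega
  · intro φ _ ψ _ h
    funext x
    have := congrFun h x
    unfold hh at this
    omega
  · intro h hh'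
    refine ⟨fun x => (1 - h x) / 2, ⟨fun x => ⟨fun hx => ?_, ?_⟩, fun x y hxy => ?_⟩, ?_⟩
    · have h1 : x ∉ bx p r := fun h3 => hx (mem_bD.2 (Or.inl h3))
      have h2 : x ∉ ebd (bx p r) := fun h3 => hx (mem_bD.2 (Or.inr h3))
      have h3 := hh'.2.1 x
      rw [frd_off h1 h2] at h3
      have h4 : h x = 1 := by simpa using h3
      show (1 - h x) / 2 = 0
      rw [h4]; norm_num
    · rintro ⟨w, hw, hwD⟩
      show (1 - h x) / 2 = 0 ∨ (1 - h x) / 2 = 1
      have h1 : x ∉ bx p r := fun h3 => hwD (mem_bD.2 (Tr.mem_nb_of_left h3 hw).2)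
      have h3 := hh'.2.1 x
      by_cases h2 : x ∈ ebd (bx p r)
      · rw [frd_bd h2] at h3
        simp only [Set.mem_insert_iff, Set.mem_singleton_iff] at h3
        rcases h3 with h3 | h3 <;> rw [h3] <;> norm_num
      · rw [frd_off h1 h2] at h3
        have h4 : h x = 1 := by simpa using h3
        rw [h4]; norm_num
    · have hout : ∀ z, z ∉ bx p r → h z = 1 ∨ h z = -1 := by
        intro z hz
        have h3 := hh'.2.1 z
        by_cases h2 : z ∈ ebd (bx p r)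
        · rw [frd_bd h2] at h3
          simp only [Set.mem_insert_iff, Set.mem_singleton_iff] at h3
          omega
        · rw [frd_off hz h2] at h3
          left
          simpa using h3
      have h5 : |h x - h y| ≤ 2 := by
        by_cases hx : x ∈ bx p r
        · exact hh'.2.2 x hx y hxy
        · by_cases hy : y ∈ bx p r
          · rw [abs_sub_comm]
            exact hh'.2.2 y hy x (Topo.adj_symm hxy)
          · rw [abs_le]
            rcases hout x hx with h6 | h6 <;> rcases hout y hy with h7 | h7 <;> omega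
      obtain ⟨i, hi⟩ := hh'.1 x
      obtain ⟨j, hj⟩ := hh'.1 y
      show |(1 - h x) / 2 - (1 - h y) / 2| ≤ 1
      rw [abs_le] at h5 ⊢
      omega
    · funext x
      obtain ⟨i, hi⟩ := hh'.1 x
      show 1 - 2 * ((1 - h x) / 2) = h x
      omega

/-! ### Association -/

/-- The event of a path of the first spin from `B` to the complement of `V`. -/
def pth (B V : Set Pt) : Set Sp := {t | ∃ a ∈ B, ∃ b, b ∉ V ∧ Conn {x | t x = true} a b}

theorem pth_mono (B V : Set Pt) : Monotone (ind (pth B V)) := by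
  intro t t' htt
  unfold ind
  by_cases h1 : t ∈ pth B V
  · have h2 : t' ∈ pth B V := by
      obtain ⟨a, ha, b, hb, hab⟩ := h1
      refine ⟨a, ha, b, hb, hab.mono fun x hx => ?_⟩
      have := htt x
      rw [show t x = true from hx] at this
      exact Bool.eq_true_of_true_le this
    rw [if_pos h1, if_pos h2]
  · rw [if_neg h1]; split_ifs <;> norm_num

/-- The finite volume probabilities of increasing events are at least the ones in the plane. -/
theorem E1_ge {Q : Measure A.Om} (hQ : IsQ Q) {E : Set (ℤ × ℤ) → Prop} (hE : F.RSW.IL E)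
    (D : Finset Pt) : pW Q E ≤ A.E1 D (F.RSW.iw E) := by
  have hdom := A.s_dom A.s_e1 (A.s_fkg A.s_super A.s_e1)
  have hm := F.RSW.iw_mono hE.1
  obtain ⟨B, hB⟩ := F.RSW.iw_loc hE.2
  have e : pW Q E = ∫ ω, F.RSW.iw E (tau ω) ∂Q :=
    F.RSW.real_eq hE.2 tau (fun B ω ω' h x hx => by unfold tau; rw [h x hx])
  have hlim := hQ.lim B (fun ω => F.RSW.iw E (tau ω)) (fun ω ω' h => hB _ _ fun x hx => by
    unfold tau; rw [h x hx])
  rw [e]
  refine le_of_tendsto hlim ?_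
  filter_upwards [eventually_ge_atTop D] with D' hD'
  exact hdom D D' hD' _ hm

theorem Ex_Ht {p : Pt} {r : ℤ} (hr : 0 ≤ r) (f : Sp → ℝ) :
    A.E1 (bD p r) f = Ex (GFF.Ht (bD p r)) (fun φ => f (tf φ)) := by
  have h1 : A.E1 (bD p r) f = Ex (A.Cf (bD p r)) (fun ω => f (tau ω)) := rfl
  rw [h1, Ex_bij (fun (φ : Pt → ℤ) x => enc (φ x)) (A.s_bij (bD p r) (cc_bD hr))]
  rfl

/-- **Association in the box.** -/
theorem fkg_box {Q : Measure A.Om} (hQ : IsQ Q) {p : Pt} {s r : ℤ} (hs : 0 < s) (hr : 2 * s ≤ r) :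
    pW Q (Ann p.1 p.2 s) * Pr (Cfg (bx p r) (frd (bx p r) 0))
        {h | ¬ NoCr {x | |h x| = 1} (bx p s) (bx p r)} ≤
      Pr (Cfg (bx p r) (frd (bx p r) 0)) {h | Zr p s (bl h)} := by
  have hr0 : 0 ≤ r := by omega
  have fin := Cfg_finite (Dat_frd (bx_finite p r) 0)
  have hIL := F.RSW.IL_Ann p.1 p.2 s
  have h1 := (A.s_fkg A.s_super A.s_e1) (bD p r) (F.RSW.iw (Ann p.1 p.2 s))
    (ind (pth (bx p s) (bx p r))) (F.RSW.iw_mono hIL.1) (pth_mono _ _)
  have h2 := E1_ge hQ hIL (bD p r)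
  have bij := bij_bD (p := p) (r := r)
  have hlip : ∀ φ ∈ GFF.Ht (bD p r), ∀ x y, Adj x y → |φ x - φ y| ≤ 1 := fun φ hφ => hφ.2
  -- the path
  have h3 : Pr (Cfg (bx p r) (frd (bx p r) 0))
      {h | ¬ NoCr {x | |h x| = 1} (bx p s) (bx p r)} ≤
        A.E1 (bD p r) (ind (pth (bx p s) (bx p r))) := by
    rw [Pr_eq_Ex fin, Ex_bij hh bij, Ex_Ht hr0]
    refine Ex_mono fun φ _ => ?_
    unfold ind
    by_cases h4 : hh φ ∈ {h : Hg | ¬ NoCr {x | |h x| = 1} (bx p s) (bx p r)}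
    · have h5 : tf φ ∈ pth (bx p s) (bx p r) := by
        have h4' : ¬ NoCr {x | |hh φ x| = 1} (bx p s) (bx p r) := h4
        unfold NoCr at h4'
        push Not at h4'
        obtain ⟨a, ha, b, hb, hab⟩ := h4'
        refine ⟨a, ha, b, hb, hab.mono fun x hx => tf_iff.2 ?_⟩
        have := hh_abs.1 hx
        omega
      rw [if_pos h4, if_pos h5]
    · rw [if_neg h4]; split_ifs <;> norm_num
  -- the circuit
  have h6 : A.E1 (bD p r) (fun t => F.RSW.iw (Ann p.1 p.2 s) t * ind (pth (bx p s) (bx p r)) t) ≤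
      Pr (Cfg (bx p r) (frd (bx p r) 0)) {h | Zr p s (bl h)} := by
    rw [Pr_eq_Ex fin, Ex_bij hh bij, Ex_Ht hr0]
    refine Ex_mono fun φ hφ => ?_
    unfold F.RSW.iw ind
    by_cases h7 : Ann p.1 p.2 s (Wp (tf φ))
    · by_cases h8 : tf φ ∈ pth (bx p s) (bx p r)
      · obtain ⟨a, ha, b, hb, hab⟩ := h8
        have hb1 : |hh φ b| = 1 := by
          have h9 := bij.mapsTo hφ
          have h10 := h9.2.1 b
          by_cases h11 : b ∈ ebd (bx p r)
          · rw [frd_bd h11] at h10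
            simp only [Set.mem_insert_iff, Set.mem_singleton_iff] at h10
            rcases h10 with h12 | h12 <;> rw [h12] <;> norm_num
          · rw [frd_off hb h11] at h10
            have h12 : hh φ b = 1 := by simpa using h10
            rw [h12]; norm_num
        have hb2 : b ∉ bx p (2 * s) := fun h => hb ⟨h.1.trans hr, h.2.trans hr⟩
        have h13 := circ (hlip φ hφ) hs h7 ha hb2 hb1 hab
        rw [if_pos (show hh φ ∈ {h | Zr p s (bl h)} from h13)]
        split_ifs <;> norm_num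
      · rw [if_neg h8, mul_zero]; split_ifs <;> norm_num
    · rw [if_neg h7, zero_mul]; split_ifs <;> norm_num
  have h0 : 0 ≤ Pr (Cfg (bx p r) (frd (bx p r) 0))
      {h | ¬ NoCr {x | |h x| = 1} (bx p s) (bx p r)} := Pr_nonneg _ _
  have h00 : 0 ≤ A.E1 (bD p r) (ind (pth (bx p s) (bx p r))) := h0.trans h3
  have h01 : 0 ≤ pW Q (Ann p.1 p.2 s) := measureReal_nonneg
  calc _ ≤ pW Q (Ann p.1 p.2 s) * A.E1 (bD p r) (ind (pth (bx p s) (bx p r))) :=
        mul_le_mul_of_nonneg_left h3 h01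
    _ ≤ A.E1 (bD p r) (F.RSW.iw (Ann p.1 p.2 s)) * A.E1 (bD p r) (ind (pth (bx p s) (bx p r))) :=
        mul_le_mul_of_nonneg_right h2 h00
    _ ≤ _ := h1.trans h6

end Vale.Agent.P153.R2.F2A
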