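import Vale.Agent.P153.R2.F2A.Expl
import Vale.Agent.P153.Bd5.B27

/-!
# P153-R2, block F2: exploration from outside in the plane

`II_expl`: `P(Zr p r' and Zr p s) ≥ P(Zr p r') * P_{V'}(Zr p s)` for the law of the absolute heights
in the plane and free data (level `0`) in `V' ⊇ bx p (2 r')`, `2 s ≤ r'`.
-/

namespace Vale.Agent.P153.R2.F2A

open Set Relation MeasureTheory
open Vale.Agent.P153 Vale.Agent.P153.R2
open Vale.Agent.P153.Topo (Conn)
open Vale.Agent.P153.F (muT Gb Fz finite_fz gb_of_plane)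
open Vale.Agent.P153.F.X (Zr bl II iE tE Fn LocS stp)
open scoped Classical

/-- The blocked edges of a modulus. -/
def bm (c : Hg) : Set Pt := {w | ∃ x y, Adj x y ∧ w = x + y ∧ c x ≤ 1 ∧ c y ≤ 1}

theorem bm_anti {b c : Hg} (h : b ≤ c) : bm c ⊆ bm b := by
  rintro w ⟨x, y, h1, h2, h3, h4⟩
  exact ⟨x, y, h1, h2, (h x).trans h3, (h y).trans h4⟩

theorem bm_md {h : Hg} (hh : ∀ x, Odd (h x)) : bm (md 0 h) = bl h := by
  have e : ∀ x, md 0 h x ≤ 1 ↔ |h x| = 1 := fun x => by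
    unfold md; rw [sub_zero]; exact (abs_odd_eq (hh x)).symm
  ext w
  constructor
  · rintro ⟨x, y, h1, h2, h3, h4⟩
    exact ⟨x, y, h1, h2, (e x).1 h3, (e y).1 h4⟩
  · rintro ⟨x, y, h1, h2, h3, h4⟩
    exact ⟨x, y, h1, h2, (e x).2 h3, (e y).2 h4⟩

theorem mem_iE {T : Set Pt} {x y : Pt} (hxy : Adj x y) : x + y ∈ iE T ↔ x ∈ T ∧ y ∈ T := by
  constructor
  · rintro ⟨x', hx', y', hy', hxy', he⟩
    rcases F.X.LE.edge_eq hxy hxy' he with ⟨rfl, rfl⟩ | ⟨rfl, rfl⟩
    · exact ⟨hx', hy'⟩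
    · exact ⟨hy', hx'⟩
  · rintro ⟨hx, hy⟩
    exact ⟨x, hx, y, hy, hxy, rfl⟩

theorem bm_congr {T : Set Pt} {a b : Hg} (h : ∀ x ∈ T, a x = b x) {w : Pt} (hw : w ∈ iE T) :
    w ∈ bm a ↔ w ∈ bm b := by
  have key : ∀ a b : Hg, (∀ x ∈ T, a x = b x) → w ∈ bm a → w ∈ bm b := by
    rintro a b h ⟨x, y, h1, rfl, h3, h4⟩
    obtain ⟨hx, hy⟩ := (mem_iE h1).1 hw
    exact ⟨x, y, h1, rfl, by rw [← h x hx]; exact h3, by rw [← h y hy]; exact h4⟩
  exact ⟨key a b h, key b a fun x hx => (h x hx).symm⟩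

theorem mem_bl' {h : Hg} {x y : Pt} (hxy : Adj x y) : x + y ∈ bl h ↔ |h x| = 1 ∧ |h y| = 1 := by
  constructor
  · rintro ⟨x', y', hxy', he, h1, h2⟩
    rcases F.X.LE.edge_eq hxy hxy' he with ⟨rfl, rfl⟩ | ⟨rfl, rfl⟩
    · exact ⟨h1, h2⟩
    · exact ⟨h2, h1⟩
  · rintro ⟨h1, h2⟩
    exact ⟨x, y, hxy, rfl, h1, h2⟩

/-- Open steps and unblocked edges. -/
theorem opL_iff {h : Hg} {x y : Pt} : OpL 0 h x y ↔ stp (bl h) x y := by
  unfold OpL stp
  rw [sub_zero, sub_zero]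
  constructor
  · rintro ⟨h1, h2⟩
    exact ⟨h1, fun h3 => h2 ((mem_bl' h1).1 h3)⟩
  · rintro ⟨h1, h2⟩
    exact ⟨h1, fun h3 => h2 ((mem_bl' h1).2 h3)⟩

theorem opL_symm {m : ℤ} {h : Hg} {x y : Pt} (hxy : OpL m h x y) : OpL m h y x :=
  ⟨Topo.adj_symm hxy.1, fun h1 => hxy.2 ⟨h1.2, h1.1⟩⟩

theorem rtg_symm {m : ℤ} {h : Hg} {x y : Pt} (hp : ReflTransGen (OpL m h) x y) :
    ReflTransGen (OpL m h) y x := by
  induction hp with
  | refl => exact .refl
  | tail _ h2 ih => exact ReflTransGen.head (opL_symm h2) ih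

/-- A confined set is not reached by the cluster of the complement. -/
theorem disj_of_conf {h : Hg} {S T : Set Pt} (hc : F.X.Conf (bl h) S T) :
    Disjoint (CluL 0 Tᶜ h) S := by
  rw [Set.disjoint_left]
  rintro y ⟨x, hx, hp⟩ hy
  refine hx (hc y hy x ?_)
  exact ReflTransGen.mono (fun _ _ h1 => opL_iff.1 h1) _ _ (rtg_symm hp)

theorem conf_of_disj {h : Hg} {S T : Set Pt} (hc : Disjoint (CluL 0 Tᶜ h) S) :
    F.X.Conf (bl h) S T := by
  intro x hx y hp
  by_contra hy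
  refine Set.disjoint_left.1 hc ⟨y, hy, rtg_symm ?_⟩ hx
  exact ReflTransGen.mono (fun _ _ h1 => opL_iff.2 h1) _ _ hp

/-- The frozen configurations in the language of `Cfg`. -/
theorem fz_eq (L : Finset Pt) {ξ : Hg} (hξ : Lip ξ) : Fz L ξ = Cfg (L : Set Pt) (exa L ξ) := by
  ext h
  constructor
  · rintro ⟨h1, h2⟩
    refine ⟨h1.1, fun x => ?_, fun x _ y hxy => h1.2 x y hxy⟩
    unfold exa
    split_ifs with h3
    · exact Set.mem_univ _
    · exact h2 x h3
  · intro hh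
    have h2 : ∀ x, x ∉ L → h x = ξ x := fun x hx => by
      have := hh.2.1 x
      unfold exa at this
      rw [if_neg (show x ∉ (L : Set Pt) from hx)] at this
      exact this
    refine ⟨⟨hh.1, fun x y hxy => ?_⟩, h2⟩
    by_cases hx : x ∈ L
    · exact hh.2.2 x hx y hxy
    · by_cases hy : y ∈ L
      · rw [abs_sub_comm]
        exact hh.2.2 y hy x (Topo.adj_symm hxy)
      · rw [h2 x hx, h2 y hy]
        exact hξ.2 x y hxy

theorem Dat_exa {V : Set Pt} (hV : V.Finite) (η : Hg) : Dat V (exa V η) := by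
  refine ⟨hV, fun x hx => ?_, hV.subset fun x hx => ?_⟩
  · unfold exa
    rw [if_neg hx]
    exact Set.finite_singleton _
  · by_contra h1
    refine hx ?_
    unfold exa
    rw [if_neg h1]
    exact Set.subsingleton_singleton

theorem bx_finite (p : Pt) (r : ℤ) : (bx p r).Finite := by
  refine ((Set.finite_Icc (p.1 - r) (p.1 + r)).prod (Set.finite_Icc (p.2 - r) (p.2 + r))).subset ?_
  rintro x ⟨h1, h2⟩
  rw [abs_le] at h1 h2
  simp only [Set.mem_prod, Set.mem_Icc]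
  omega

theorem sum_fz (L : Finset Pt) {ξ : Hg} (hξ : Lip ξ) (f : Hg → ℝ) :
    0 ≤ ∑ g ∈ (finite_fz L ξ).toFinset, f g ↔ 0 ≤ Ex (Cfg (L : Set Pt) (exa L ξ)) f := by
  rw [← fz_eq L hξ, Ex_eq_ev (finite_fz L ξ)]
  unfold ev
  have hc : 0 < ((finite_fz L ξ).toFinset.card : ℝ) := by
    have : ξ ∈ (finite_fz L ξ).toFinset := by
      rw [Set.Finite.mem_toFinset]
      exact ⟨hξ, fun _ _ => rfl⟩
    exact_mod_cast Finset.card_pos.2 ⟨ξ, this⟩
  constructor
  · intro h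
    exact div_nonneg h hc.le
  · intro h
    by_contra h1
    exact absurd h (not_le.2 (div_neg_of_neg_of_pos (not_le.1 h1) hc))

/-- **Exploration from outside in the plane.** -/
theorem II_expl {P : Measure (Pt → ℤ)} (hP : GFF.Plane P) {p : Pt} {r s : ℤ} (hs : 1 ≤ s)
    (hsr : 2 * s ≤ r) {V' : Set Pt} (hV'f : V'.Finite) (hV' : bx p (2 * r) ⊆ V') :
    Pr (Cfg V' (frd V' 0)) {h | Zr p s (bl h)} * II P (F.X.ind (Zr p r)) (fun _ => 1) ≤
      II P (fun B => F.X.ind (Zr p r) B * F.X.ind (Zr p s) B) (fun _ => 1) := by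
  have hint := F.X.s_int hP
  have hr : 1 ≤ r := by omega
  obtain ⟨mr, fr⟩ := F.X.s_loc p r hr
  obtain ⟨ms, fs⟩ := F.X.s_loc p s hs
  obtain ⟨Λr, hΛr, hlr⟩ := fr.loc
  obtain ⟨Λs, hΛs, hls⟩ := fs.loc
  set X : Hg → ℝ := fun c => F.X.ind (Zr p r) (bm c) with hX
  set B : Hg → ℝ := fun c => 1 - F.X.ind (Zr p s) (bm c) with hB
  have i01 : ∀ (Q : Set Pt → Prop) (S : Set Pt), 0 ≤ F.X.ind Q S ∧ F.X.ind Q S ≤ 1 := by
    intro Q S
    unfold F.X.ind
    split_ifs <;> constructor <;> norm_num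
  set m : ℝ := Ex (Cfg V' (frd V' 0)) (fun h => B (md 0 h)) with hm
  have hm1 : 1 - m = Pr (Cfg V' (frd V' 0)) {h | Zr p s (bl h)} := by
    rw [Pr_eq_Ex (Cfg_finite (Dat_frd hV'f 0)), hm, hB]
    simp only
    rw [Ex_sub, Ex_const (Cfg_finite (Dat_frd hV'f 0)) ⟨one, one_mem V'⟩, sub_sub_cancel]
    refine Ex_congr fun h hh => ?_
    rw [bm_md hh.1]
    unfold F.X.ind ind
    rfl
  -- the finite set
  set L : Finset Pt := (bx_finite p (2 * r)).toFinset with hL
  have hLc : (L : Set Pt) = bx p (2 * r) := by rw [hL, Set.Finite.coe_toFinset]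
  have hfin : ∀ ξ : Hg, Lip ξ → 0 ≤ Ex (Cfg (L : Set Pt) (exa L ξ))
      (fun h => X (md 0 h) * (m - B (md 0 h))) := by
    intro ξ hξ
    have key := expl_anti (V := (L : Set Pt)) (I := exa L ξ) (V' := V') (A := (bx p (2 * r))ᶜ)
      (K₂ := bx p (2 * s)) (X := X) (B := B) (Dat_exa (Finset.finite_toSet L) ξ) hV'f
      (fun x hx => by
        unfold exa
        rw [if_pos]
        rw [hLc]
        exact not_not.1 hx)
      (by rw [compl_compl, hLc]) (by rw [compl_compl]; exact hV')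
      (fun a => (i01 _ _).1) (fun a b hab => mr (bm_anti hab))
      (fun a => sub_nonneg.2 (i01 _ _).2) (fun a b hab => sub_le_sub_left (ms (bm_anti hab)) _)
      (fun a b hab => by
        show 1 - F.X.ind (Zr p s) (bm a) = 1 - F.X.ind (Zr p s) (bm b)
        rw [hls (bm a) (bm b) fun w hw => bm_congr hab (hΛs w hw).1])
      (fun h hh hne => by
        have h1 : Zr p r (bl h) := by
          by_contra h2
          apply hne
          show F.X.ind (Zr p r) (bm (md 0 h)) = 0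
          rw [bm_md hh.1]
          exact if_neg h2
        have h2 := disj_of_conf (F.X.s_conf p r (bl h) hr h1)
        refine h2.mono_right ?_
        intro x hx
        exact ⟨hx.1.trans hsr, hx.2.trans hsr⟩)
    rw [Ex_congr (G := fun h => m * X (md 0 h) - X (md 0 h) * B (md 0 h)) (fun h _ => by ring),
      Ex_sub, Ex_const_mul]
    linarith
  -- integration
  have iX : Integrable (fun h => F.X.ind (Zr p r) (bl h)) (muT P) := by
    have := hint (F.X.ind (Zr p r)) (fun _ => 1) ⟨Λr, fun w _ => Set.mem_univ w, hlr⟩ fr.pin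
      F.Top.Pol.one
    simpa only [mul_one] using this
  have iXB : Integrable (fun h => F.X.ind (Zr p r) (bl h) * F.X.ind (Zr p s) (bl h)) (muT P) := by
    have := hint (fun B => F.X.ind (Zr p r) B * F.X.ind (Zr p s) B) (fun _ => 1)
      ⟨Λr ∪ Λs, fun w _ => Set.mem_univ w, fun B B' hBB => by
        simp only
        rw [hlr B B' fun w hw => hBB w (Finset.mem_union_left _ hw),
          hls B B' fun w hw => hBB w (Finset.mem_union_right _ hw)]⟩
      (by rw [fr.pin, zero_mul]) F.Top.Pol.one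
    simpa only [mul_one] using this
  set f : Hg → ℝ := fun h => F.X.ind (Zr p r) (bl h) * (F.X.ind (Zr p s) (bl h) - (1 - m)) with hf
  have ifI : Integrable f (muT P) := by
    have e : f = fun h => F.X.ind (Zr p r) (bl h) * F.X.ind (Zr p s) (bl h) -
        (1 - m) * F.X.ind (Zr p r) (bl h) := by
      funext h; rw [hf]; ring
    rw [e]
    exact iXB.sub (iX.const_mul _)
  have hloc : ∃ B₀ : Finset Pt, ∀ h h' : Hg, (∀ x ∈ B₀, h x = h' x) → f h = f h' := by
    refine ⟨F.X.LE.eb (Λr ∪ Λs), fun h h' hh => ?_⟩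
    have e : ∀ w ∈ Λr ∪ Λs, w ∈ bl h ↔ w ∈ bl h' := fun w hw =>
      F.X.LE.bl_congr (Λ := Λr ∪ Λs) (B := F.X.LE.eb (Λr ∪ Λs)) (Finset.Subset.refl _)
        (h := h) (h' := h') hh hw
    rw [hf]
    simp only
    rw [hlr (bl h) (bl h') fun w hw => e w (Finset.mem_union_left _ hw),
      hls (bl h) (bl h') fun w hw => e w (Finset.mem_union_right _ hw)]
  obtain ⟨B₀, hB₀⟩ := hloc
  have hmain := F.integral_nonneg_of_frozen (gb_of_plane hP) L f B₀ hB₀ ifI fun ξ hξ => by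
    rw [sum_fz L hξ]
    refine (hfin ξ hξ).trans_eq (Ex_congr fun h hh => ?_)
    show X (md 0 h) * (m - B (md 0 h)) = f h
    rw [hf, hX, hB]
    simp only
    rw [bm_md hh.1]
    ring
  have e : ∫ h, f h ∂(muT P) = II P (fun B => F.X.ind (Zr p r) B * F.X.ind (Zr p s) B)
      (fun _ => 1) - (1 - m) * II P (F.X.ind (Zr p r)) (fun _ => 1) := by
    have e1 : f = fun h => F.X.ind (Zr p r) (bl h) * F.X.ind (Zr p s) (bl h) -
        (1 - m) * F.X.ind (Zr p r) (bl h) := by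
      funext h; rw [hf]; ring
    rw [e1, integral_sub iXB (iX.const_mul _), integral_const_mul]
    unfold II
    simp only [mul_one]
  rw [e, hm1] at hmain
  linarith

end Vale.Agent.P153.R2.F2A
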