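import Vale.Agent.P153.R2.F2A.OneArm
import Vale.Agent.P153.R2.F2.One
import Vale.Agent.P153.R2.F2A.LcB

/-!
# P153-R2, block F2: the lower bound, in finite volume

`lower_fin`: the event `XX` (the clusters at level `0` of the complement of `thk S r` do not come close
to `S`, those of the complement of `thk S (3 r - 1)` do not reach `thk S (2 r)`) is determined by the
exploration from outside; given it, `h = η` on `S` has probability at least `c' nu (thk S r) S η`.
-/

namespace Vale.Agent.P153.R2.F2A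

open Set Relation
open Vale.Agent.P153 Vale.Agent.P153.R2
open Vale.Agent.P153.Topo (Conn)
open Vale.Agent.P153.R2.F2 (thk NoCr Cx RV Bdd OneS)
open scoped Classical

variable {V W G S T κ A B : Set Pt} {η ξ : Hg}

/-! ### Locality of clusters -/

/-- The cluster of the complement of `W` depends on the heights on `nb W`. -/
theorem CluL_congr {h h' : Hg} (hh : ∀ x ∈ nb W, h x = h' x) : CluL 0 Wᶜ h = CluL 0 Wᶜ h' := by
  have key : ∀ h h' : Hg, (∀ x ∈ nb W, h x = h' x) → CluL 0 Wᶜ h ⊆ CluL 0 Wᶜ h' := by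
    rintro h h' hh y ⟨x, hx, hp⟩
    induction hp with
    | refl => exact ⟨x, hx, .refl⟩
    | @tail u v h1 h2 ih =>
      by_cases hv : v ∈ W
      · refine CluL_step ih ⟨h2.1, ?_⟩
        rw [← hh v (Or.inl hv), ← hh u (mem_nb_adj hv (Topo.adj_symm h2.1))]
        exact h2.2
      · exact ⟨v, hv, .refl⟩
  exact Subset.antisymm (key h h' hh) (key h' h fun x hx => (hh x hx).symm)

/-- The cluster of a subset of `A` is determined by the exploration of the cluster of `A`. -/
theorem CluL_fib {a b : Hg} (hBA : B ⊆ A) (hb : b ∈ fib A a) : CluL 0 B b = CluL 0 B a := by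
  have key : ∀ a b : Hg, (∀ x ∈ CluL 0 A a, b x = a x) → CluL 0 B a ⊆ CluL 0 B b := by
    rintro a b hb y ⟨x, hx, hp⟩
    have h0 : ∀ y, ReflTransGen (OpL 0 a) x y → y ∈ CluL 0 A a := fun y hy => ⟨x, hBA hx, hy⟩
    induction hp with
    | refl => exact ⟨x, hx, .refl⟩
    | @tail u v h1 h2 ih =>
      refine CluL_step ih ⟨h2.1, ?_⟩
      rw [hb u (h0 u h1), hb v (h0 v (h1.tail h2))]
      exact h2.2
  exact Subset.antisymm (key b a fun x hx => (hb.2 x (by rw [← hb.1]; exact hx)).symm)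
    (key a b hb.2)

/-! ### Positive association of the closures -/

/-- Given that the edges around `G` are closed, `κ` is closed with a larger probability. -/
theorem clo_ge (hW : W.Finite) (G κ : Set Pt) :
    Pr (Cfg W (frd W 0)) (Clo κ) ≤ Pr (Cfg W (frd W 0) ∩ Clo G) (Clo κ) := by
  set J₁ : Pt → Set ℤ := cns (frd W 0) (bdy G) (fun _ => {a | |a - 0| = 1}) with hJ₁
  have e1 : Cfg W (frd W 0) ∩ Clo G = Cfg W J₁ := by
    rw [hJ₁, Cfg_cns, Clo_eq]
    rfl
  have sdf : ∀ x, Sd 0 1 (frd W 0 x) := by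
    intro x
    by_cases h1 : x ∈ W
    · rw [frd_in h1]; exact Sd_univ 0 1
    · by_cases h2 : x ∈ ebd W
      · rw [frd_bd h2]; exact Sd_free 0 1
      · rw [frd_off h1 h2]; exact Sd_single (by norm_num)
  have dat1 : Dat W J₁ := by
    refine ⟨hW, fun x hx => ?_, (Dat_frd hW 0).cof.subset fun x hx h1 => hx ?_⟩
    · rw [hJ₁]
      unfold cns
      split_ifs
      · exact ((Dat_frd hW 0).bdd x hx).inter_of_left _
      · exact (Dat_frd hW 0).bdd x hx
    · rw [hJ₁]
      unfold cns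
      split_ifs
      · exact h1.anti inter_subset_left
      · exact h1
  have one1 : one ∈ Cfg W J₁ := by
    rw [← e1]
    exact ⟨one_mem W, one_clo G⟩
  have hsub : ∀ x, x ∉ W → x ∉ ebd W → J₁ x = frd W 0 x := by
    intro x h1 h2
    rw [hJ₁]
    unfold cns
    split_ifs
    · rw [frd_off h1 h2]
      ext a
      simp only [mem_inter_iff, mem_singleton_iff, mem_ofPred_eq, zero_add, sub_zero]
      constructor
      · exact fun h => h.1
      · rintro rfl
        exact ⟨rfl, abs_one⟩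
    · rfl
  have cmp : Cmp W J₁ (frd W 0) 0 1 := by
    refine ⟨Even.zero, Or.inl rfl, dat1, Dat_frd hW 0, (nb_finite hW).subset fun x hx => ?_,
      ⟨one, one1⟩, ⟨one, one_mem W⟩, fun x => Or.inl ?_⟩
    · by_contra h1
      exact hx (hsub x (fun h => h1 (Or.inl h)) fun h => h1 (Or.inr h))
    · by_cases h1 : x ∈ W ∧ x ∈ bdy G
      · have h2 : J₁ x = {0 - 1, 0 + 1} := by
          rw [hJ₁]
          unfold cns
          rw [if_pos h1.2, frd_in h1.1, univ_inter]
          ext a
          simp only [mem_ofPred_eq, mem_insert_iff, mem_singleton_iff, zero_add, sub_zero, zero_sub]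
          rw [abs_eq (by norm_num : (0 : ℤ) ≤ 1)]
          exact or_comm
        rw [h2]
        exact SdLe_free Even.zero (Or.inl rfl) (sdf x)
      · have h2 : J₁ x = frd W 0 x := by
          by_cases h3 : x ∈ ebd W
          · rw [hJ₁]
            unfold cns
            split_ifs
            · rw [frd_bd h3]
              ext a
              simp only [mem_inter_iff, mem_ofPred_eq, mem_insert_iff, mem_singleton_iff, zero_add,
                sub_zero, zero_sub]
              constructor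
              · exact fun h => h.1
              · rintro (rfl | rfl) <;> simp
            · rfl
          · by_cases h4 : x ∈ W
            · have h5 : x ∉ bdy G := fun h5 => h1 ⟨h4, h5⟩
              rw [hJ₁]
              unfold cns
              rw [if_neg h5]
            · exact hsub x h4 h3
        rw [h2]
        exact SdLe.refl (sdf x)
  have key := md_Pr_anti0 cmp (CloD_lower κ)
  have k1 : Pr (Cfg W J₁) {g | md 0 g ∈ CloD κ} = Pr (Cfg W J₁) (Clo κ) :=
    Pr_congr fun g hg => mem_CloD hg κ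
  have k2 : Pr (Cfg W (frd W 0)) {g | md 0 g ∈ CloD κ} = Pr (Cfg W (frd W 0)) (Clo κ) :=
    Pr_congr fun g hg => mem_CloD hg κ
  rw [k1, k2] at key
  rw [e1]
  exact key

/-- The confined event has a larger probability, given that the edges around `G` are closed. -/
theorem inn_ge (hW : W.Finite) (hTW : T ⊆ W) (hTG : nb T ⊆ G) :
    Pr (Cfg W (frd W 0)) (inn S T η) ≤ Pr (Cfg W (frd W 0) ∩ Clo G) (inn S T η) := by
  have key := inner_le (Dat_frd hW 0) (Dat_frd hW 0) (D := univ) (D' := Clo G) (S := S) (T := T)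
    (hW.subset hTW) (OffDet_univ T)
    (fun a ha b hab x hx y hy hxy => by
      have h1 : x ∉ T := fun h => hy (hTG (mem_nb_adj h hxy))
      have h2 : y ∉ T := fun h => hy (hTG (Or.inl h))
      rw [hab x h1, hab y h2]
      exact ha x hx y hy hxy)
    (fun x _ => rfl) hTW hTW η (c := 1) zero_le_one
    (fun κ _ _ => by
      rw [one_mul, inter_univ]
      exact clo_ge hW G κ)
  rw [one_mul, inter_univ] at key
  exact key

/-! ### Confinement -/

theorem frd_abs {x : Pt} {g : Hg} (hg : g ∈ Cfg W (frd W 0)) (hx : x ∉ W) : |g x| = 1 := by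
  have h3 := hg.2.1 x
  by_cases h2 : x ∈ ebd W
  · rw [frd_bd h2] at h3
    simp only [Set.mem_insert_iff, Set.mem_singleton_iff] at h3
    rcases h3 with h3 | h3 <;> rw [h3] <;> norm_num
  · rw [frd_off hx h2] at h3
    have h4 : g x = 1 := by simpa using h3
    rw [h4]; norm_num

/-- For free data, given `h = η` on `S`, the cluster of `S` is confined with positive probability. -/
theorem inn_pos {R s₀ : ℤ} {c : ℝ} (hR : 1 ≤ R) (hs₀ : 1 ≤ s₀) (hc : 0 < c) (hone : OneS R s₀ c)
    (L : ℕ) : ∃ k : ℤ, 1 ≤ k ∧ ∀ ρ : ℤ, ∃ c' : ℝ, 0 < c' ∧ ∀ s, s₀ ≤ s → ∀ (q : Pt) (S : Set Pt)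
    (η : Hg) (r : ℤ), S ⊆ bx q (ρ * s) → (∀ x ∈ S, |η x| ≤ 2 * L + 1) → 2 * (k * s) ≤ r →
    r ≤ ρ * s → c' * nu (thk S r) S η ≤
      Pr (Cfg (thk S r) (frd (thk S r) 0)) (inn S (thk S (k * s)) η) := by
  set k : ℤ := 2 * L + 4 with hk
  refine ⟨k * (2 * R + 7) + 1, by nlinarith [Int.natCast_nonneg L], fun ρ => ?_⟩
  obtain ⟨c', hc', h1⟩ := r0_k hR hs₀ hc hone ρ L
  refine ⟨c', hc', fun s hs q S η r hS hη hkr hr => ?_⟩
  have hs1 : 1 ≤ s := hs₀.trans hs
  set t : ℤ := (2 * R + 7) * s with ht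
  have ht0 : 0 ≤ t := by rw [ht]; nlinarith
  have hkt0 : 0 ≤ (k : ℤ) * t := mul_nonneg (by rw [hk]; positivity) ht0
  have hk1 : (k * (2 * R + 7) + 1) * s = k * t + s := by rw [ht]; ring
  rw [hk1] at hkr ⊢
  have hr0 : 0 ≤ r := by omega
  have hSf : S.Finite := (bx_finite q (ρ * s)).subset hS
  set W : Set Pt := thk S r with hW
  have hWf : W.Finite := thk_finite hSf
  have hSW : S ⊆ W := sub_thk hr0 S
  have fin := Cfg_finite (Dat_frd hWf 0)
  set T : Set Pt := thk S (k * t + s) with hT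
  -- the conditional probability
  have key : ∀ h₀ ∈ Cfg W (frd W 0) ∩ evS S η,
      c' ≤ Pr (Cx (W \ S) h₀) {h | CluL 0 S h ⊆ T} := by
    rintro h₀ ⟨hh₀, hh₀S⟩
    have hne : (Cx (W \ S) h₀).Nonempty := by
      refine ⟨h₀, hh₀.1, fun x => ?_, fun x hx y hxy => hh₀.2.2 x hx.1 y hxy⟩
      by_cases hx : x ∈ W \ S
      · rw [F2.exa_in hx]; trivial
      · unfold exa
        rw [if_neg hx]
        exact rfl
    have h2 := h1 s hs q S (W \ S) h₀ 0 r t hS le_rfl le_rfl (by rw [← hk]; omega) hr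
      (hWf.subset Set.sdiff_subset)
      (fun x hx => ⟨hx.1, fun h => hx.2 (sub_thk le_rfl S h)⟩) hne
      (fun x hx => by
        have h3 : |h₀ x| ≤ 2 * L + 1 := by
          by_cases h4 : x ∈ S
          · rw [hh₀S x h4]; exact hη x h4
          · have h5 : x ∉ W := fun h => hx.1 ⟨h, h4⟩
            rw [frd_abs hh₀ h5]
            have := Int.natCast_nonneg L
            omega
        exact abs_le.1 h3)
    refine h2.trans (Pr_mono fun h _ hh => ?_)
    have s10 : S ⊆ (W \ S)ᶜ := fun x hx h2 => h2.2 hx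
    rw [zero_add, ← hk] at hh
    have hh' : Disjoint (CluL 0 (W \ S)ᶜ h) (thk S (r - k * t) \ thk S (k * t)) := hh
    exact (clu_in (by omega) (sub_thk hkt0 S) (hh'.mono_left (CluL_mono s10 h))).trans
      (thk_mono (by omega) S)
  -- summation
  set D : Set Hg := Cfg W (frd W 0) ∩ evS S η with hD
  have finD : D.Finite := fin.inter_of_left _
  have e1 : Pr (Cfg W (frd W 0)) (inn S T η) =
      nu W S η * Ex D (ind {h | CluL 0 S h ⊆ T}) := by
    unfold nu
    rw [Pr_eq_Ex fin, hD, Ex_inter_mul fin]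
    refine Ex_congr fun h _ => ?_
    rw [F2.ind_mul]
    rfl
  rw [e1, mul_comm c']
  rcases D.eq_empty_or_nonempty with h0 | h0
  · have : nu W S η = 0 := by
      unfold nu Pr
      rw [← hD, h0]
      simp
    rw [this, zero_mul, zero_mul]
  refine mul_le_mul_of_nonneg_left ?_ (Pr_nonneg _ _)
  have h3 : Ex D (fun h => - ind {h | CluL 0 S h ⊆ T} h) ≤ Ex D (fun _ => -c') := by
    refine Ex_le_of_fiber finD (fun h x => if x ∈ W \ S then 0 else h x) _ _
      (fun _ _ _ _ _ => rfl) fun a ha => ?_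
    have e2 : D ∩ {b | (fun x => if x ∈ W \ S then 0 else b x) =
        (fun x => if x ∈ W \ S then 0 else a x)} = Cx (W \ S) a := by
      ext b
      constructor
      · rintro ⟨hb, hba⟩
        refine ⟨hb.1.1, fun x => ?_, fun x hx y hxy => hb.1.2.2 x hx.1 y hxy⟩
        by_cases hx : x ∈ W \ S
        · rw [F2.exa_in hx]; trivial
        · have h4 := congrFun hba x
          simp only [if_neg hx] at h4
          unfold exa
          rw [if_neg hx]
          exact h4
      · intro hb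
        have h5 : ∀ x, x ∉ W \ S → b x = a x := fun x hx => by
          have h6 := hb.2.1 x
          unfold exa at h6
          rw [if_neg hx] at h6
          exact h6
        refine ⟨⟨⟨hb.1, fun x => ?_, fun x hx y hxy => ?_⟩, fun x hx => ?_⟩, ?_⟩
        · by_cases hx : x ∈ W
          · rw [frd_in hx]; trivial
          · rw [h5 x fun h => hx h.1]
            exact ha.1.2.1 x
        · by_cases hxS : x ∈ S
          · by_cases hy : y ∈ W \ S
            · rw [abs_sub_comm]
              exact hb.2.2 y hy x (Topo.adj_symm hxy)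
            · rw [h5 x fun h => h.2 hxS, h5 y hy]
              exact ha.1.2.2 x hx y hxy
          · exact hb.2.2 x ⟨hx, hxS⟩ y hxy
        · rw [h5 x fun h => h.2 hx]
          exact ha.2 x hx
        · funext x
          by_cases hx : x ∈ W \ S
          · simp only [if_pos hx]
          · simp only [if_neg hx]
            exact h5 x hx
    rw [e2, Ex_neg]
    have h4 := key a ha
    rw [Pr_eq_Ex (F2.Cx_finite (hWf.subset Set.sdiff_subset) a)] at h4
    linarith
  rw [Ex_neg, Ex_const finD h0] at h3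
  linarith

/-! ### The event from outside -/

/-- The event determined by the exploration from outside. -/
def XX (S : Set Pt) (r u : ℤ) : Set Hg :=
  {h | Disjoint (CluL 0 (thk S r)ᶜ h) (thk S (r - u)) ∧
    Disjoint (CluL 0 (thk S (3 * r - 1))ᶜ h) (thk S (2 * r))}

theorem XX_fib {r u : ℤ} (hr : 1 ≤ r) {a b : Hg} (hb : b ∈ fib (thk S r)ᶜ a) :
    b ∈ XX S r u ↔ a ∈ XX S r u := by
  unfold XX
  rw [Set.mem_ofPred_eq, Set.mem_ofPred_eq, CluL_fib Subset.rfl hb,
    CluL_fib (compl_subset_compl.2 (thk_mono (by omega) S)) hb]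

theorem XX_congr {r u : ℤ} (hr : 1 ≤ r) {a b : Hg}
    (hab : ∀ x ∈ nb (thk S (3 * r - 1)), a x = b x) : a ∈ XX S r u ↔ b ∈ XX S r u := by
  unfold XX
  rw [Set.mem_ofPred_eq, Set.mem_ofPred_eq, CluL_congr hab, CluL_congr fun x hx =>
    hab x (nb_mono (thk_mono (by omega) S) hx)]

/-- A path of vertices with `|h| ≥ 3` is open. -/
theorem clu_of_conn {h : Hg} {x y : Pt} {L : ℕ}
    (hxy : Conn {z | 2 * (L : ℤ) + 3 ≤ |h z|} x y) (hx : x ∈ A) : y ∈ CluL 0 A h := by
  have h0 : ∀ z, 2 * (L : ℤ) + 3 ≤ |h z| → |h z - 0| ≠ 1 := fun z hz h1 => by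
    rw [sub_zero] at h1
    have := Int.natCast_nonneg L
    omega
  refine Conn.ind (fun y => y ∈ CluL 0 A h) (subset_CluL A h hx) (fun u v hu huv hv ih => ?_) hxy
  exact CluL_step ih ⟨huv, fun h1 => h0 v hv h1.2⟩

/-- The event contains the shield. -/
theorem XX_Sh {r u : ℤ} (L : ℕ) : XX S r u ⊆ Sh L S (2 * r) (3 * r - 1) := by
  rintro h ⟨-, h2⟩ x hx y hy hxy
  exact Set.disjoint_left.1 h2 (clu_of_conn hxy.symm hy) hx

/-- **The lower bound in finite volume.** -/
theorem lower_fin {R s₀ : ℤ} {c : ℝ} (hR : 1 ≤ R) (hs₀ : 1 ≤ s₀) (hc : 0 < c) (hone : OneS R s₀ c)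
    (L : ℕ) : ∃ k : ℤ, 1 ≤ k ∧ ∀ ρ : ℤ, ∃ c' : ℝ, 0 < c' ∧ ∀ s, s₀ ≤ s → ∀ (q : Pt) (S : Set Pt)
    (η ξ : Hg) (r u : ℤ), S ⊆ bx q (ρ * s) → (∀ x ∈ S, |η x| ≤ 2 * L + 1) → 2 * (k * s) ≤ r →
    0 ≤ u → 2 * u ≤ r → r ≤ ρ * s →
    c' * nu (thk S r) S η * Ex (Cx (thk S r) ξ) (ind (XX S r u)) ≤
      Ex (Cx (thk S r) ξ) (ind (evS S η ∩ XX S r u)) := by
  obtain ⟨k, hk, h0⟩ := inn_pos hR hs₀ hc hone L
  refine ⟨k + 1, by omega, fun ρ => ?_⟩
  obtain ⟨c', hc', h1⟩ := h0 ρ
  refine ⟨c', hc', fun s hs q S η ξ r u hS hη hkr hu0 hu hr => ?_⟩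
  have hs1 : 1 ≤ s := hs₀.trans hs
  have hks : 0 ≤ k * s := by nlinarith
  have hkr' : 2 * (k * s) + 2 ≤ r := by nlinarith
  have hSf : S.Finite := (bx_finite q (ρ * s)).subset hS
  set W : Set Pt := thk S r with hW
  have hWf : W.Finite := thk_finite hSf
  set T : Set Pt := thk S (k * s) with hT
  have hTW : T ⊆ W := thk_mono (by omega) S
  have hST : S ⊆ T := sub_thk hks S
  have key := h1 s hs q S η r hS hη (by omega) hr
  set m : ℝ := c' * nu W S η with hm
  have dI : Dat W (exa W ξ) := F2.dat_exa hWf ξ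
  have fin : (Cx W ξ).Finite := Cfg_finite dI
  have goal : Ex (Cx W ξ) (fun h => - ind (evS S η ∩ XX S r u) h) ≤
      Ex (Cx W ξ) (fun h => - (m * ind (XX S r u) h)) := by
    refine Ex_le_of_fiber fin (fmap Wᶜ) _ _ (fun a _ b _ hab => ?_) fun a ha => ?_
    · have h2 : b ∈ fib Wᶜ a := by
        rw [← fib_eq_fmap]; exact hab.symm
      have h3 := XX_fib (S := S) (r := r) (u := u) (by omega) h2
      unfold ind
      by_cases h4 : a ∈ XX S r u
      · rw [if_pos h4, if_pos (h3.2 h4)]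
      · rw [if_neg h4, if_neg fun h5 => h4 (h3.1 h5)]
    · rw [fib_eq_fmap]
      by_cases hX : a ∈ XX S r u
      · have e : ind (XX S r u) a = 1 := if_pos hX
        rw [e, mul_one, Ex_neg]
        refine neg_le_neg ?_
        have hTG : nb T ⊆ (CluL 0 Wᶜ a)ᶜ := by
          intro x hx h2
          refine Set.disjoint_left.1 hX.1 h2 ?_
          exact thk_mono (by omega) S (nb_thk hx)
        have k1 : Ex (Cx W ξ ∩ fib Wᶜ a) (ind (inn S T η)) ≤
            Ex (Cx W ξ ∩ fib Wᶜ a) (ind (evS S η ∩ XX S r u)) := by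
          refine Ex_mono fun b hb => ind_le fun h2 => ⟨h2.1, ?_⟩
          exact (XX_fib (by omega) hb.2).2 hX
        refine le_trans ?_ k1
        rw [fib_Ex dI (Dat_frd hWf 0) (A := Wᶜ) (fun x hx => F2.exa_in (not_not.1 hx))
          (fun x hx => frd_in (not_not.1 hx) 0) (by rw [compl_compl]) (by rw [compl_compl]) ha
          ⟨one, one_mem W, one_clo _⟩]
        have h2 : ∀ b : Hg, ind (inn S T η) (glu (CluL 0 Wᶜ a)ᶜ b a) = ind (inn S T η) b :=
          fun b => ind_inn_congr hST fun x hx => glu_in (hTG hx)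
        rw [Ex_congr fun b _ => h2 b,
          ← Pr_eq_Ex ((Cfg_finite (Dat_frd hWf 0)).inter_of_left _)]
        exact key.trans (inn_ge hWf hTW hTG)
      · have e : ind (XX S r u) a = 0 := if_neg hX
        rw [e, mul_zero, neg_zero]
        have h2 : Ex (Cx W ξ ∩ fib Wᶜ a) (fun h => - ind (evS S η ∩ XX S r u) h) ≤
            Ex (Cx W ξ ∩ fib Wᶜ a) (fun _ => 0) :=
          Ex_mono fun b _ => neg_nonpos.2 (ind_nonneg _ _)
        rwa [Ex_zero] at h2
  rw [Ex_neg, Ex_neg, Ex_const_mul] at goal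
  linarith

end Vale.Agent.P153.R2.F2A
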