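import Vale.Agent.P153.R2.F2A.OneArm

/-!
# P153-R2, block F2: products of free laws, several arms

* `nu_union`, `nu_prod`: for free data the domains at distance `≥ 3` are independent.
* `Sh_of_union`: the shield of a union of distant arms gives the shields of the arms.
-/

namespace Vale.Agent.P153.R2.F2A

open Set Relation
open Vale.Agent.P153 Vale.Agent.P153.R2
open Vale.Agent.P153.Topo (Conn)
open Vale.Agent.P153.R2.F2 (thk NoCr Cx RV Bdd OneS)
open scoped Classical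

variable {W₁ W₂ S₁ S₂ : Set Pt} {η : Hg}

theorem frd_off_nb {W : Set Pt} {g : Hg} (hg : g ∈ Cfg W (frd W 0)) {x : Pt} (hx : x ∉ nb W) :
    g x = 1 := by
  have h1 := hg.2.1 x
  rw [frd_off (fun h => hx (Or.inl h)) (fun h => hx (Or.inr h))] at h1
  simpa using h1

theorem glu_free (hd : Disjoint (nb W₁) (nb W₂)) {a g : Hg}
    (ha : a ∈ Cfg (W₁ ∪ W₂) (frd (W₁ ∪ W₂) 0)) (hg : g ∈ Cfg W₁ (frd W₁ 0)) :
    glu (nb W₁) g a ∈ Cfg (W₁ ∪ W₂) (frd (W₁ ∪ W₂) 0) := by
  have d : ∀ x, x ∈ nb W₁ → x ∉ nb W₂ := fun x h1 h2 => Set.disjoint_left.1 hd h1 h2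
  refine ⟨fun x => ?_, fun x => ?_, fun x hx y hxy => ?_⟩
  · by_cases h1 : x ∈ nb W₁
    · rw [glu_in h1]; exact hg.1 x
    · rw [glu_out h1]; exact ha.1 x
  · by_cases h1 : x ∈ nb W₁
    · rw [glu_in h1]
      by_cases h2 : x ∈ W₁
      · rw [frd_in (Or.inl h2)]; trivial
      · have h3 : x ∈ ebd W₁ := h1.resolve_left h2
        have h4 : x ∉ W₁ ∪ W₂ := fun h => h.elim h2 fun h5 => d x h1 (Or.inl h5)
        have h5 : x ∈ ebd (W₁ ∪ W₂) := ⟨h4, by
          obtain ⟨-, y, hy, hyx⟩ := h3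
          exact ⟨y, Or.inl hy, hyx⟩⟩
        rw [frd_bd h5]
        have h6 := hg.2.1 x
        rwa [frd_bd h3] at h6
    · rw [glu_out h1]; exact ha.2.1 x
  · rcases hx with hx | hx
    · rw [glu_in (show x ∈ nb W₁ from Or.inl hx), glu_in (mem_nb_adj hx hxy)]
      exact hg.2.2 x hx y hxy
    · have h1 : x ∉ nb W₁ := fun h => d x h (Or.inl hx)
      have h2 : y ∉ nb W₁ := fun h => d y h (mem_nb_adj hx hxy)
      rw [glu_out h1, glu_out h2]
      exact ha.2.2 x (Or.inr hx) y hxy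

/-- Independence of the free law in `W₁` from the rest. -/
theorem prod_free (h₁ : W₁.Finite) (h₂ : W₂.Finite) (hd : Disjoint (nb W₁) (nb W₂))
    {F₁ F₂ : Hg → ℝ} (l₁ : ∀ a b : Hg, (∀ x ∈ nb W₁, a x = b x) → F₁ a = F₁ b)
    (l₂ : ∀ a b : Hg, (∀ x, x ∉ nb W₁ → a x = b x) → F₂ a = F₂ b) :
    Ex (Cfg (W₁ ∪ W₂) (frd (W₁ ∪ W₂) 0)) (fun h => F₁ h * F₂ h) =
      Ex (Cfg W₁ (frd W₁ 0)) F₁ * Ex (Cfg (W₁ ∪ W₂) (frd (W₁ ∪ W₂) 0)) F₂ := by
  set m : ℝ := Ex (Cfg W₁ (frd W₁ 0)) F₁ with hm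
  rw [← Ex_const_mul]
  refine Ex_eq_of_fiber (Cfg_finite (Dat_frd (h₁.union h₂) 0))
    (fun b x => if x ∈ nb W₁ then 0 else b x) _ _ (fun a _ b _ hab => ?_) fun a ha => ?_
  · congr 1
    refine l₂ a b fun x hx => ?_
    have := congrFun hab x
    simpa only [if_neg hx] using this
  · have hfib : ∀ b : Hg, (fun x => if x ∈ nb W₁ then 0 else b x) =
        (fun x => if x ∈ nb W₁ then 0 else a x) ↔ ∀ x, x ∉ nb W₁ → b x = a x := by
      intro b
      constructor
      · intro h x hx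
        have := congrFun h x
        simpa only [if_neg hx] using this
      · intro h
        funext x
        by_cases hx : x ∈ nb W₁
        · simp only [if_pos hx]
        · simp only [if_neg hx]; exact h x hx
    have bij : BijOn (fun g => glu (nb W₁) g a) (Cfg W₁ (frd W₁ 0))
        (Cfg (W₁ ∪ W₂) (frd (W₁ ∪ W₂) 0) ∩ {b | (fun x => if x ∈ nb W₁ then 0 else b x) =
          (fun x => if x ∈ nb W₁ then 0 else a x)}) := by
      refine ⟨fun g hg => ⟨glu_free hd ha hg, (hfib _).2 fun x hx => glu_out hx⟩, ?_, ?_⟩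
      · intro g hg g' hg' h
        funext x
        by_cases hx : x ∈ nb W₁
        · have := congrFun h x
          simpa only [glu_in hx] using this
        · rw [frd_off_nb hg hx, frd_off_nb hg' hx]
      · rintro b ⟨hb, hb'⟩
        rw [Set.mem_ofPred_eq, hfib] at hb'
        refine ⟨glu (nb W₁) b one, ⟨fun x => ?_, fun x => ?_, fun x hx y hxy => ?_⟩, ?_⟩
        · by_cases hx : x ∈ nb W₁
          · rw [glu_in hx]; exact hb.1 x
          · rw [glu_out hx]; exact odd_one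
        · by_cases hx : x ∈ nb W₁
          · rw [glu_in hx]
            by_cases h2 : x ∈ W₁
            · rw [frd_in h2]; trivial
            · have h3 : x ∈ ebd W₁ := hx.resolve_left h2
              have h4 : x ∉ W₁ ∪ W₂ := fun h => h.elim h2 fun h5 =>
                Set.disjoint_left.1 hd hx (Or.inl h5)
              have h5 : x ∈ ebd (W₁ ∪ W₂) := ⟨h4, by
                obtain ⟨-, y, hy, hyx⟩ := h3
                exact ⟨y, Or.inl hy, hyx⟩⟩
              rw [frd_bd h3]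
              have h6 := hb.2.1 x
              rwa [frd_bd h5] at h6
          · rw [glu_out hx]; exact frd_one W₁ x
        · rw [glu_in (show x ∈ nb W₁ from Or.inl hx), glu_in (mem_nb_adj hx hxy)]
          exact hb.2.2 x (Or.inl hx) y hxy
        · funext x
          by_cases hx : x ∈ nb W₁
          · simp only [glu_in hx]
          · simp only [glu_out hx]; exact (hb' x hx).symm
    rw [Ex_bij _ bij, mul_comm m]
    have e : ∀ g : Hg, F₁ (glu (nb W₁) g a) * F₂ (glu (nb W₁) g a) = F₂ a * F₁ g := by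
      intro g
      rw [l₁ (glu (nb W₁) g a) g fun x hx => glu_in hx, l₂ (glu (nb W₁) g a) a fun x hx => glu_out hx,
        mul_comm]
    rw [Ex_congr fun g _ => e g, Ex_const_mul]

theorem evS_congr {S : Set Pt} {a b : Hg} (hab : ∀ x ∈ S, a x = b x) :
    ind (evS S η) a = ind (evS S η) b := by
  unfold ind evS
  have : a ∈ {h : Hg | ∀ x ∈ S, h x = η x} ↔ b ∈ {h : Hg | ∀ x ∈ S, h x = η x} := by
    constructor
    · exact fun h x hx => by rw [← hab x hx]; exact h x hx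
    · exact fun h x hx => by rw [hab x hx]; exact h x hx
  by_cases h1 : a ∈ {h : Hg | ∀ x ∈ S, h x = η x}
  · rw [if_pos h1, if_pos (this.1 h1)]
  · rw [if_neg h1, if_neg fun h2 => h1 (this.2 h2)]

theorem nu_union (h₁ : W₁.Finite) (h₂ : W₂.Finite) (hd : Disjoint (nb W₁) (nb W₂))
    (s₁ : S₁ ⊆ W₁) (s₂ : S₂ ⊆ W₂) :
    nu (W₁ ∪ W₂) (S₁ ∪ S₂) η = nu W₁ S₁ η * nu W₂ S₂ η := by
  unfold nu
  have f := Cfg_finite (Dat_frd (h₁.union h₂) 0)
  have e : ∀ h : Hg, ind (evS (S₁ ∪ S₂) η) h = ind (evS S₁ η) h * ind (evS S₂ η) h := by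
    intro h
    have h0 : evS (S₁ ∪ S₂) η = evS S₁ η ∩ evS S₂ η := by
      ext h
      exact ⟨fun h1 => ⟨fun x hx => h1 x (Or.inl hx), fun x hx => h1 x (Or.inr hx)⟩,
        fun h1 x hx => hx.elim (h1.1 x) (h1.2 x)⟩
    rw [h0]
    unfold ind
    by_cases h1 : h ∈ evS S₁ η <;> by_cases h2 : h ∈ evS S₂ η <;> simp [h1, h2]
  rw [Pr_eq_Ex f, Ex_congr fun h _ => e h, prod_free h₁ h₂ hd
    (fun a b hab => evS_congr fun x hx => hab x (Or.inl (s₁ hx)))
    (fun a b hab => evS_congr fun x hx => hab x fun h =>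
      Set.disjoint_left.1 hd h (Or.inl (s₂ hx))),
    ← Pr_eq_Ex (Cfg_finite (Dat_frd h₁ 0))]
  congr 1
  have key := prod_free (W₁ := W₂) (W₂ := W₁) h₂ h₁ hd.symm (F₁ := ind (evS S₂ η))
    (F₂ := fun _ => 1) (fun a b hab => evS_congr fun x hx => hab x (Or.inl (s₂ hx)))
    (fun _ _ _ => rfl)
  simp only [mul_one] at key
  rw [Set.union_comm W₂ W₁, Ex_const f ⟨one, one_mem _⟩, mul_one] at key
  rw [key, Pr_eq_Ex (Cfg_finite (Dat_frd h₂ 0))]

/-! ### Several arms -/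

/-- Sup-distance larger than `d`. -/
def Far (d : ℤ) (A B : Set Pt) : Prop := ∀ x ∈ A, ∀ y ∈ B, d < |x.1 - y.1| ∨ d < |x.2 - y.2|

theorem Far.symm {d : ℤ} {A B : Set Pt} (h : Far d A B) : Far d B A := fun x hx y hy => by
  rw [abs_sub_comm, abs_sub_comm x.2]
  exact h y hy x hx

theorem Far.disj {d a b : ℤ} {A B : Set Pt} (h : Far d A B) (hab : a + b ≤ d) :
    Disjoint (thk A a) (thk B b) := by
  rw [Set.disjoint_left]
  rintro x ⟨u, hu, h1, h2⟩ ⟨v, hv, h3, h4⟩
  have h5 := h u hu v hv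
  rw [abs_le] at h1 h2 h3 h4
  rcases h5 with h5 | h5 <;> rcases lt_abs.1 h5 with h6 | h6 <;> omega

theorem thk_union (A B : Set Pt) (r : ℤ) : thk (A ∪ B) r = thk A r ∪ thk B r := by
  ext x
  constructor
  · rintro ⟨a, ha | ha, h⟩
    · exact Or.inl ⟨a, ha, h⟩
    · exact Or.inr ⟨a, ha, h⟩
  · rintro (⟨a, ha, h⟩ | ⟨a, ha, h⟩)
    · exact ⟨a, Or.inl ha, h⟩
    · exact ⟨a, Or.inr ha, h⟩

theorem thk_empty (r : ℤ) : thk ∅ r = ∅ := by
  ext x
  simp [thk]

theorem nu_prod {ι : Type*} (S : ι → Set Pt) (J : Finset ι) {r : ℤ} (hr : 0 ≤ r)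
    (hf : ∀ i ∈ J, (S i).Finite)
    (hS : ∀ i ∈ J, ∀ j ∈ J, i ≠ j → Far (2 * r + 2) (S i) (S j)) (η : Hg) :
    nu (thk (⋃ i ∈ J, S i) r) (⋃ i ∈ J, S i) η = ∏ i ∈ J, nu (thk (S i) r) (S i) η := by
  induction J using Finset.induction_on with
  | empty =>
    simp only [Finset.notMem_empty, Set.iUnion_of_empty, Set.iUnion_empty, Finset.prod_empty]
    rw [thk_empty]
    unfold nu
    have h1 : evS ∅ η = Set.univ := by
      ext h
      exact ⟨fun _ => trivial, fun _ x hx => absurd hx (Set.notMem_empty x)⟩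
    rw [Pr_eq_Ex (Cfg_finite (Dat_frd Set.finite_empty 0)), h1]
    have h2 : ∀ h : Hg, ind (Set.univ : Set Hg) h = 1 := fun h => if_pos trivial
    rw [Ex_congr fun h _ => h2 h, Ex_const (Cfg_finite (Dat_frd Set.finite_empty 0))
      ⟨one, one_mem _⟩]
  | insert i J hi ih =>
    rw [Finset.prod_insert hi, Finset.set_biUnion_insert, thk_union,
      ← ih (fun j hj => hf j (Finset.mem_insert_of_mem hj)) fun j hj k hk =>
        hS j (Finset.mem_insert_of_mem hj) k (Finset.mem_insert_of_mem hk)]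
    have hU : (⋃ j ∈ J, S j).Finite := Set.Finite.biUnion J.finite_toSet fun j hj =>
      hf j (Finset.mem_insert_of_mem hj)
    refine nu_union (thk_finite (hf i (Finset.mem_insert_self i J))) (thk_finite hU) ?_
      (sub_thk hr _) (sub_thk hr _)
    have h1 : Far (2 * r + 2) (S i) (⋃ j ∈ J, S j) := by
      intro x hx y hy
      obtain ⟨j, hj, hyj⟩ := Set.mem_iUnion₂.1 hy
      exact hS i (Finset.mem_insert_self i J) j (Finset.mem_insert_of_mem hj)
        (fun h => hi (h ▸ hj)) x hx y hyj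
    exact (h1.disj (a := r + 1) (b := r + 1) (by omega)).mono nb_thk nb_thk

/-- The shield of the union gives the shields of the arms. -/
theorem Sh_of_union {ι : Type*} (S : ι → Set Pt) {r : ℤ} (L : ℕ) (hr : 1 ≤ r)
    (hS : ∀ i j, i ≠ j → Far (6 * r) (S i) (S j)) (i : ι) :
    Sh L (⋃ i, S i) (2 * r) (3 * r - 1) ⊆ Sh L (S i) (2 * r) (3 * r - 1) := by
  intro h hh x hx y hy hxy
  have hsub : S i ⊆ ⋃ i, S i := Set.subset_iUnion S i
  have hx' : x ∈ thk (⋃ i, S i) (2 * r) := by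
    obtain ⟨a, ha, h1⟩ := hx
    exact ⟨a, hsub ha, h1⟩
  have key : ∀ v, Conn {z | 2 * (L : ℤ) + 3 ≤ |h z|} x v → v ∈ thk (S i) (3 * r - 1) := by
    intro v hv
    refine Conn.ind (fun v => v ∈ thk (S i) (3 * r - 1)) (thk_mono (by omega) _ hx)
      (fun u w hu huw hw ih => ?_) hv
    by_contra hc
    have h1 : w ∈ thk (S i) (3 * r) := by
      have := thk_adj ih huw
      rwa [show 3 * r - 1 + 1 = 3 * r by ring] at this
    refine hh x hx' w (fun h2 => ?_) (hu.tail huw hw)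
    obtain ⟨a, ha, h3⟩ := h2
    obtain ⟨j, hj⟩ := Set.mem_iUnion.1 ha
    by_cases hij : i = j
    · subst hij
      exact hc ⟨a, hj, h3⟩
    · exact Set.disjoint_left.1 ((hS i j hij).disj (a := 3 * r) (b := 3 * r - 1) (by omega))
        h1 ⟨a, hj, h3⟩
  exact hy (key y hxy)

end Vale.Agent.P153.R2.F2A
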