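import Vale.Agent.P153.R2.F2A.Lower
import Vale.Agent.P153.R2.F2A.Prod
import Vale.Agent.P153.R2.GAPS.MomT

/-!
# P153-R2, block F2: the lower bound in the plane

* `lower_plane`: `c' nu (thk S r) S η ≤ muT (h = η on S, XX S r (3 s))`.
* `lower_arms`: the same for several distant arms, with the product of the free probabilities and the
  shields of all the arms.
-/

namespace Vale.Agent.P153.R2.F2A

open Set Relation MeasureTheory
open Vale.Agent.P153 Vale.Agent.P153.R2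
open Vale.Agent.P153.Topo (Conn)
open Vale.Agent.P153.F (muT gb_of_plane Fz finite_fz)
open Vale.Agent.P153.F.X (Zr bl II iE tE LocS stp S_pos)
open Vale.Agent.P153.R2.F2 (thk NoCr Cx RV Bdd OneS)
open scoped Classical

variable {S T : Set Pt} {η : Hg} {r u : ℤ}

/-! ### The event as a property of the blocked edges -/

theorem conf_imp {B B' : Set Pt} (h : ∀ w ∈ tE T, w ∈ B ↔ w ∈ B') (hc : F.X.Conf B S T) :
    F.X.Conf B' S T := by
  intro x hx y hp
  have key : ReflTransGen (stp B) x y := by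
    induction hp with
    | refl => exact .refl
    | @tail a b _ h2 ih =>
      refine ih.tail ⟨h2.1, fun h3 => h2.2 ((h _ ⟨a, hc x hx a ih, b, h2.1, rfl⟩).1 h3)⟩
  exact hc x hx y key

theorem conf_iff {B B' : Set Pt} (h : ∀ w ∈ tE T, w ∈ B ↔ w ∈ B') :
    F.X.Conf B S T ↔ F.X.Conf B' S T :=
  ⟨conf_imp h, conf_imp fun w hw => (h w hw).symm⟩

theorem tE_finite (hT : T.Finite) : (tE T).Finite := by
  have h1 : tE T ⊆ (fun z : Pt × Pt => z.1 + z.2) '' (T ×ˢ nb T) := by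
    rintro w ⟨x, hx, y, hxy, rfl⟩
    exact ⟨(x, y), ⟨hx, mem_nb_adj hx hxy⟩, rfl⟩
  exact ((hT.prod (nb_finite hT)).image _).subset h1

/-- The event `XX` as a property of the blocked edges. -/
def QX (S : Set Pt) (r u : ℤ) (B : Set Pt) : Prop :=
  F.X.Conf B (thk S (r - u)) (thk S r) ∧ F.X.Conf B (thk S (2 * r)) (thk S (3 * r - 1))

theorem XX_iff {h : Hg} : h ∈ XX S r u ↔ QX S r u (bl h) :=
  ⟨fun h1 => ⟨conf_of_disj h1.1, conf_of_disj h1.2⟩, fun h1 => ⟨disj_of_conf h1.1,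
    disj_of_conf h1.2⟩⟩

theorem ind_XX (h : Hg) : ind (XX S r u) h = F.X.ind (QX S r u) (bl h) := by
  unfold ind F.X.ind
  by_cases h1 : h ∈ XX S r u
  · rw [if_pos h1, if_pos (XX_iff.1 h1)]
  · rw [if_neg h1, if_neg fun h2 => h1 (XX_iff.2 h2)]

theorem QX_loc (hS : S.Finite) : LocS univ (F.X.ind (QX S r u)) := by
  have f1 := tE_finite (thk_finite (a := r) hS)
  have f2 := tE_finite (thk_finite (a := 3 * r - 1) hS)
  refine ⟨f1.toFinset ∪ f2.toFinset, fun w _ => Set.mem_univ w, fun B B' hB => ?_⟩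
  have h1 : QX S r u B ↔ QX S r u B' := and_congr
    (conf_iff fun w hw => hB w (Finset.mem_union_left _ ((Set.Finite.mem_toFinset f1).2 hw)))
    (conf_iff fun w hw => hB w (Finset.mem_union_right _ ((Set.Finite.mem_toFinset f2).2 hw)))
  unfold F.X.ind
  by_cases h2 : QX S r u B
  · rw [if_pos h2, if_pos (h1.1 h2)]
  · rw [if_neg h2, if_neg fun h3 => h2 (h1.2 h3)]

theorem QX_pin (hS : S.Finite) (hne : S.Nonempty) (hr : 1 ≤ r) : F.X.ind (QX S r u) ∅ = 0 := by
  unfold F.X.ind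
  rw [if_neg]
  rintro ⟨-, h2⟩
  obtain ⟨a, ha⟩ := hne
  have h3 : ∀ n : ℕ, ReflTransGen (stp ∅) a (a.1 + n, a.2) := by
    intro n
    induction n with
    | zero => simp only [Nat.cast_zero, add_zero]; exact .refl
    | succ n ih =>
      refine ih.tail ⟨?_, Set.notMem_empty _⟩
      have h7 : Adj (a.1 + n, a.2) (a.1 + n + 1, a.2) := by
        rw [Topo.adj_iff]; simp
      rwa [show (a.1 + (n : ℤ) + 1) = a.1 + ((n + 1 : ℕ) : ℤ) by push_cast; ring] at h7
  have h4 : ∀ n : ℕ, ((a.1 + n, a.2) : Pt) ∈ thk S (3 * r - 1) := fun n =>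
    h2 a (sub_thk (by omega) S ha) _ (h3 n)
  have h5 := (thk_finite (a := 3 * r - 1) hS)
  have h6 : Function.Injective fun n : ℕ => ((a.1 + n, a.2) : Pt) := by
    intro m n h
    have := congrArg Prod.fst h
    simp only at this
    omega
  exact Set.infinite_of_injective_forall_mem h6 h4 h5

/-! ### The net -/

theorem net_QX {s ρ : ℤ} {N : ℕ} (hs : 1 ≤ s) (hS : S ⊆ bx 0 (ρ * s)) (h4 : 4 * s ≤ r)
    (h3r : 3 * r ≤ ρ * s) (hN : 2 * ρ ≤ N) {B : Set Pt}
    (hB : ∀ y : Pt, |y.1| ≤ N → |y.2| ≤ N → Zr (s * y.1, s * y.2) s B) :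
    QX S r (3 * s) B := by
  have key : ∀ x : Pt, |x.1| ≤ 2 * ρ * s → |x.2| ≤ 2 * ρ * s → ∀ y, ReflTransGen (stp B) x y →
      |y.1 - x.1| ≤ 3 * s ∧ |y.2 - x.2| ≤ 3 * s := by
    intro x h1 h2 y hp
    have e1 := Int.mul_ediv_add_emod x.1 s
    have e2 := Int.mul_ediv_add_emod x.2 s
    have m1 := Int.emod_nonneg x.1 (show s ≠ 0 by omega)
    have m2 := Int.emod_nonneg x.2 (show s ≠ 0 by omega)
    have m3 := Int.emod_lt_of_pos x.1 (show 0 < s by omega)
    have m4 := Int.emod_lt_of_pos x.2 (show 0 < s by omega)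
    rw [abs_le] at h1 h2
    have b1 : |x.1 / s| ≤ N := by
      rw [abs_le]
      constructor
      · have : -(2 * ρ) ≤ x.1 / s := by
          rw [Int.le_ediv_iff_mul_le (by omega)]
          nlinarith
        omega
      · have : x.1 / s ≤ 2 * ρ := by
          refine Int.ediv_le_of_le_mul (by omega) ?_
          nlinarith
        omega
    have b2 : |x.2 / s| ≤ N := by
      rw [abs_le]
      constructor
      · have : -(2 * ρ) ≤ x.2 / s := by
          rw [Int.le_ediv_iff_mul_le (by omega)]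
          nlinarith
        omega
      · have : x.2 / s ≤ 2 * ρ := by
          refine Int.ediv_le_of_le_mul (by omega) ?_
          nlinarith
        omega
    have hc := F.X.s_conf _ s B hs (hB (x.1 / s, x.2 / s) b1 b2)
    have hx : x ∈ F.X.bx (s * (x.1 / s), s * (x.2 / s)) s := by
      show |x.1 - s * (x.1 / s)| ≤ s ∧ |x.2 - s * (x.2 / s)| ≤ s
      rw [abs_le, abs_le]
      omega
    have hy : |y.1 - s * (x.1 / s)| ≤ 2 * s ∧ |y.2 - s * (x.2 / s)| ≤ 2 * s := hc x hx y hp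
    rw [abs_le, abs_le] at hy
    rw [abs_le, abs_le]
    omega
  have gen : ∀ a b : ℤ, a + 3 * s ≤ b → ρ * s + a ≤ 2 * ρ * s → F.X.Conf B (thk S a) (thk S b) := by
    rintro a b hab ha x ⟨z, hz, h1, h2⟩ y hp
    have hz' : |z.1 - 0| ≤ ρ * s ∧ |z.2 - 0| ≤ ρ * s := hS hz
    rw [abs_le, abs_le] at hz'
    rw [abs_le] at h1 h2
    have h5 := key x (by rw [abs_le]; omega) (by rw [abs_le]; omega) y hp
    rw [abs_le, abs_le] at h5
    refine ⟨z, hz, ?_, ?_⟩ <;> rw [abs_le] <;> omega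
  have e : 2 * ρ * s = ρ * s + ρ * s := by ring
  exact ⟨gen _ _ (by omega) (by omega), gen _ _ (by omega) (by omega)⟩

/-! ### Integration -/

theorem evS_meas {S : Set Pt} (hS : S.Finite) (η : Hg) : MeasurableSet (evS S η) := by
  have : evS S η = ⋂ x ∈ S, {h : Hg | h x = η x} := by
    ext h; simp [evS]
  rw [this]
  exact MeasurableSet.biInter hS.countable fun x _ =>
    measurable_pi_apply (X := fun _ : Pt => ℤ) x (MeasurableSet.singleton (η x))

theorem XX_meas (hS : S.Finite) : MeasurableSet (XX S r u) := by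
  have h1 : XX S r u = {h : Hg | QX S r u (bl h)} := by
    ext h; exact XX_iff
  rw [h1]
  exact F.X.Sb.measQ (QX_loc hS)

/-- **The lower bound in the plane.** -/
theorem lower_plane {P : Measure (Pt → ℤ)} (hP : GFF.Plane P) (hpos : S_pos P) {R s₀ : ℤ} {c : ℝ}
    (hR : 1 ≤ R) (hs₀ : 1 ≤ s₀) (hc : 0 < c) (hone : OneS R s₀ c) (L : ℕ) :
    ∃ k : ℤ, 4 ≤ k ∧ ∀ ρ : ℤ, ∃ (c' : ℝ) (s₁ : ℤ), 0 < c' ∧ s₀ ≤ s₁ ∧
      ∀ s, s₁ ≤ s → ∀ (S : Set Pt) (η : Hg) (r : ℤ),
      S ⊆ bx 0 (ρ * s) → S.Nonempty → (∀ x ∈ S, |η x| ≤ 2 * L + 1) → k * s ≤ r → 3 * r ≤ ρ * s →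
      c' * nu (thk S r) S η ≤ (muT P).real (evS S η ∩ XX S r (3 * s)) := by
  obtain ⟨k, hk, h0⟩ := lower_fin hR hs₀ hc hone L
  refine ⟨2 * k + 6, by omega, fun ρ => ?_⟩
  obtain ⟨c₁, hc₁, h1⟩ := h0 ρ
  obtain ⟨c₂, hc₂, s₂, hs₂, h2⟩ := hpos (2 * ρ.natAbs + 2)
  refine ⟨c₁ * c₂, max s₀ s₂, mul_pos hc₁ hc₂, le_max_left _ _,
    fun s hs S η r hS hne hη hkr hr => ?_⟩
  have hsa : s₀ ≤ s := (le_max_left _ _).trans hs
  have hsb : s₂ ≤ s := (le_max_right _ _).trans hs
  have hs1 : 1 ≤ s := hs₀.trans hsa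
  have hk' : (2 * k + 6) * s = 2 * (k * s) + 6 * s := by ring
  have hks : 0 ≤ k * s := by nlinarith
  have hr6 : 6 * s ≤ r := by omega
  have hSf : S.Finite := (bx_finite 0 (ρ * s)).subset hS
  have hint := F.X.s_int hP
  have hρ0 := abs_nonneg ρ
  have hρ1 := le_abs_self ρ
  -- the mass of XX
  have iX : Integrable (fun h => ind (XX S r (3 * s)) h) (muT P) := by
    have h3 := hint _ (fun _ => 1) (QX_loc (r := r) (u := 3 * s) hSf) (QX_pin hSf hne (by omega))
      F.Top.Pol.one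
    simp only [mul_one] at h3
    exact h3.congr (Filter.Eventually.of_forall fun h => (ind_XX h).symm)
  have hX : c₂ ≤ ∫ h, ind (XX S r (3 * s)) h ∂(muT P) := by
    have h3 := h2 s hsb 0 1 le_rfl
      (by simp only [Prod.fst_zero, abs_zero]; push_cast; omega)
      (by simp only [Prod.snd_zero, abs_zero]; push_cast; omega)
    refine h3.trans ?_
    unfold II
    refine integral_mono_of_nonneg (Filter.Eventually.of_forall fun h => ?_) iX
      (Filter.Eventually.of_forall fun h => ?_)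
    · simp only [mul_one, Pi.zero_apply]
      unfold F.X.ind
      split_ifs <;> norm_num
    · simp only [mul_one]
      rw [ind_XX]
      unfold F.X.ind
      by_cases h4 : (∀ y : Pt, |y.1| ≤ (2 * ρ.natAbs + 2 : ℕ) → |y.2| ≤ (2 * ρ.natAbs + 2 : ℕ) →
          Zr (s * y.1, s * y.2) s (bl h)) ∧ Zr (s * (0 : Pt).1, s * (0 : Pt).2) (1 * s) (bl h)
      · rw [if_pos h4, if_pos (net_QX hs1 hS (by omega) hr (by push_cast; omega) h4.1)]
      · rw [if_neg h4]
        split_ifs <;> norm_num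
  -- the function
  set m : ℝ := c₁ * nu (thk S r) S η with hm
  have hWf : (thk S r).Finite := thk_finite hSf
  have iE : Integrable (fun h => ind (evS S η ∩ XX S r (3 * s)) h) (muT P) := by
    have hmeas := (evS_meas hSf η).inter (XX_meas (r := r) (u := 3 * s) hSf)
    have e : (fun h => ind (evS S η ∩ XX S r (3 * s)) h) =
        (evS S η ∩ XX S r (3 * s)).indicator (fun _ => (1 : ℝ)) := by
      funext h; rfl
    refine iX.mono' (by rw [e]; exact (measurable_const.indicator hmeas).aestronglyMeasurable)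
      (Filter.Eventually.of_forall fun h => ?_)
    rw [Real.norm_eq_abs, abs_of_nonneg (ind_nonneg _ _)]
    exact ind_le fun h5 => h5.2
  have hmain := F.integral_nonneg_of_frozen (gb_of_plane hP) hWf.toFinset
    (fun h => ind (evS S η ∩ XX S r (3 * s)) h - m * ind (XX S r (3 * s)) h)
    ((nb_finite (thk_finite (a := 3 * r - 1) hSf)).toFinset ∪ hSf.toFinset)
    (fun h h' hh => by
      have e1 : h ∈ XX S r (3 * s) ↔ h' ∈ XX S r (3 * s) := XX_congr (by omega) fun x hx =>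
        hh x (Finset.mem_union_left _ ((Set.Finite.mem_toFinset _).2 hx))
      have e2 : h ∈ evS S η ↔ h' ∈ evS S η := by
        have : ∀ x ∈ S, h x = h' x := fun x hx =>
          hh x (Finset.mem_union_right _ ((Set.Finite.mem_toFinset _).2 hx))
        exact forall_congr' fun x => forall_congr' fun hx => by rw [this x hx]
      have e3 : ind (XX S r (3 * s)) h = ind (XX S r (3 * s)) h' := by
        unfold ind
        simp only [e1]
      have e4 : ind (evS S η ∩ XX S r (3 * s)) h = ind (evS S η ∩ XX S r (3 * s)) h' := by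
        unfold ind
        simp only [Set.mem_inter_iff, e1, e2]
      rw [e3, e4])
    (iE.sub (iX.const_mul m)) fun ξ hξ => by
      rw [sum_fz _ hξ, Set.Finite.coe_toFinset, Ex_sub, Ex_const_mul]
      have h5 := h1 s hsa 0 S η ξ r (3 * s) hS hη (by omega) (by omega) (by omega) (by omega)
      linarith
  rw [integral_sub iE (iX.const_mul m), integral_const_mul] at hmain
  have e5 : ∫ h, ind (evS S η ∩ XX S r (3 * s)) h ∂(muT P) =
      (muT P).real (evS S η ∩ XX S r (3 * s)) := by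
    have hmeas := (evS_meas hSf η).inter (XX_meas (r := r) (u := 3 * s) hSf)
    have e : (fun h => ind (evS S η ∩ XX S r (3 * s)) h) =
        (evS S η ∩ XX S r (3 * s)).indicator (fun _ => (1 : ℝ)) := by
      funext h; rfl
    rw [e, integral_indicator hmeas, setIntegral_const, smul_eq_mul, mul_one]
  rw [e5] at hmain
  have hnu : 0 ≤ nu (thk S r) S η := Pr_nonneg _ _
  have hm0 : 0 ≤ m := mul_nonneg hc₁.le hnu
  have h6 := mul_le_mul_of_nonneg_left hX hm0
  have e6 : c₁ * c₂ * nu (thk S r) S η = m * c₂ := by rw [hm]; ring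
  rw [e6]
  linarith

/-- The measure of `h = η` on a nonempty set is finite. -/
theorem evS_fin {P : Measure (Pt → ℤ)} (hP : GFF.Plane P) {S : Set Pt} (hS : S.Finite)
    (hne : S.Nonempty) (η : Hg) : muT P (evS S η) ≠ ⊤ := by
  obtain ⟨x₀, hx₀⟩ := hne
  have h1 := Gp.onS_integrable hP (S := hS.toFinset) (J := fun x => {η x})
    ((Set.Finite.mem_toFinset _).2 hx₀) (M := |η x₀|) (fun a ha => by
      rw [Set.mem_singleton_iff.1 ha]) (G := fun _ => 1) ⟨∅, fun _ _ _ => rfl⟩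
  rw [integrableOn_const_iff] at h1
  rcases h1 with h1 | h1
  · exact absurd h1 (by simp)
  · have h2 : evS S η ⊆ Gp.On hS.toFinset (fun x => {η x}) := fun h hh x hx =>
      hh x ((Set.Finite.mem_toFinset _).1 hx)
    exact ne_of_lt (lt_of_le_of_lt (measure_mono h2) h1)

/-- **The lower bound for several arms.** -/
theorem lower_arms {P : Measure (Pt → ℤ)} (hP : GFF.Plane P) (hpos : S_pos P) {R s₀ : ℤ} {c : ℝ}
    (hR : 1 ≤ R) (hs₀ : 1 ≤ s₀) (hc : 0 < c) (hone : OneS R s₀ c) (L : ℕ) :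
    ∃ k : ℤ, 4 ≤ k ∧ ∀ ρ : ℤ, ∃ (c' : ℝ) (s₁ : ℤ), 0 < c' ∧ s₀ ≤ s₁ ∧
      ∀ s, s₁ ≤ s → ∀ (ι : Type) [Fintype ι]
      (S : ι → Set Pt) (η : Hg) (r : ℤ), (∀ i, S i ⊆ bx 0 (ρ * s)) → (∃ i, (S i).Nonempty) →
      (∀ i, ∀ x ∈ S i, |η x| ≤ 2 * L + 1) → (∀ i j, i ≠ j → Far (6 * r) (S i) (S j)) →
      k * s ≤ r → 3 * r ≤ ρ * s →
      c' * ∏ i, nu (thk (S i) r) (S i) η ≤
        (muT P).real {h | ∀ i, h ∈ evS (S i) η ∩ Sh L (S i) (2 * r) (3 * r - 1)} := by
  obtain ⟨k, hk, h0⟩ := lower_plane hP hpos hR hs₀ hc hone L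
  refine ⟨k, hk, fun ρ => ?_⟩
  obtain ⟨c', s₁, hc', hs₁, h1⟩ := h0 ρ
  refine ⟨c', s₁, hc', hs₁, fun s hs ι _ S η r hS hne hη hF hkr hr => ?_⟩
  have hs1 : 1 ≤ s := hs₀.trans (hs₁.trans hs)
  have hr1 : 1 ≤ r := by nlinarith
  have hSf : ∀ i, (S i).Finite := fun i => (bx_finite 0 (ρ * s)).subset (hS i)
  have hUf : (⋃ i, S i).Finite := Set.finite_iUnion hSf
  obtain ⟨i₀, x₀, hx₀⟩ := hne
  have hUne : (⋃ i, S i).Nonempty := ⟨x₀, Set.mem_iUnion.2 ⟨i₀, hx₀⟩⟩
  have h2 := h1 s hs (⋃ i, S i) η r (Set.iUnion_subset hS) hUne (fun x hx => by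
    obtain ⟨i, hi⟩ := Set.mem_iUnion.1 hx
    exact hη i x hi) hkr hr
  have h3 := nu_prod S Finset.univ (r := r) (by omega) (fun i _ => hSf i)
    (fun i _ j _ hij x hx y hy => by
      rcases hF i j hij x hx y hy with h | h
      · left; omega
      · right; omega) η
  simp only [Finset.mem_univ, Set.iUnion_true] at h3
  rw [h3] at h2
  refine h2.trans (measureReal_mono ?_ ?_)
  · rintro h ⟨h4, h5⟩ i
    refine ⟨fun x hx => h4 x (Set.mem_iUnion.2 ⟨i, hx⟩), ?_⟩
    exact Sh_of_union S L hr1 hF i (XX_Sh L h5)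
  · refine ne_top_of_le_ne_top (evS_fin hP (hSf i₀) ⟨x₀, hx₀⟩ η) (measure_mono fun h hh => ?_)
    exact (hh i₀).1

end Vale.Agent.P153.R2.F2A
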