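import Vale.Agent.P153.R2.F2.Lev

/-!
# P153-R2, block F2: the confinement statements with explicit constants

`r0_k`, `r0sh_k`: the statements `S_r0`, `S_r0sh` of `F2/Stmt640.lean` with `k = 2 n + 4`, `2 n + 5`
(independent of `ρ`).
-/

namespace Vale.Agent.P153.R2.F2A

open Set Relation
open Vale.Agent.P153 Vale.Agent.P153.R2
open Vale.Agent.P153.Topo (Conn)
open Vale.Agent.P153.R2.F2

variable {R s₀ : ℤ} {c : ℝ}

theorem r0_k (hR : 1 ≤ R) (hs₀ : 1 ≤ s₀) (hc : 0 < c) (h1 : OneS R s₀ c) (ρ : ℤ) (n : ℕ) :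
    ∃ c' : ℝ, 0 < c' ∧ ∀ s, s₀ ≤ s → ∀ (q : Pt) (A V : Set Pt) (η : Hg)
      (a b t : ℤ), A ⊆ bx q (ρ * s) → 0 ≤ a → (2 * R + 7) * s ≤ t →
      a + (2 * n + 4) * t ≤ b - (2 * n + 4) * t →
      b ≤ ρ * s → V.Finite → thk A b \ thk A a ⊆ V → (Cx V η).Nonempty →
      Bdd V η (-(2 * n + 1)) (2 * n + 1) → c' ≤ Pr (Cx V η)
        {h | Disjoint (CluL 0 Vᶜ h) (thk A (b - (2 * n + 4) * t) \ thk A (a + (2 * n + 4) * t))} := by
  obtain ⟨c', hc', h2⟩ := r0_aux hR hs₀ hc h1 ρ n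
  refine ⟨c', hc', ?_⟩
  intro s hs q A V η a b t hA ha ht hab hb hV hAV hne hη
  exact h2 s hs q A V η a b t hA ha ht hab hb hV hAV hne hη

theorem r0sh_k (hR : 1 ≤ R) (hs₀ : 1 ≤ s₀) (hc : 0 < c) (h1 : OneS R s₀ c) (ρ : ℤ) (n : ℕ) :
    ∃ c' : ℝ, 0 < c' ∧ ∀ s, s₀ ≤ s → ∀ (q : Pt) (A V : Set Pt) (η : Hg)
      (a b t : ℤ), A ⊆ bx q (ρ * s) → 0 ≤ a → (2 * R + 7) * s ≤ t →
      a + (2 * n + 5) * t ≤ b - (2 * n + 5) * t → b ≤ ρ * s → V.Finite → thk A b \ thk A a ⊆ V →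
      (Cx V η).Nonempty →
      c' * Pr (Cx V η) {h | Disjoint (RV V {x | 2 * n + 3 ≤ |h x|}) (thk A b \ thk A a)} ≤
        Pr (Cx V η) {h | Disjoint (RV V {x | 2 * n + 3 ≤ |h x|}) (thk A b \ thk A a) ∧
          Disjoint (CluL 0 Vᶜ h) (thk A (b - (2 * n + 5) * t) \ thk A (a + (2 * n + 5) * t))} := by
  obtain ⟨c', hc', h2⟩ := r0_aux hR hs₀ hc h1 ρ n
  refine ⟨c', hc', ?_⟩
  intro s hs q A V η a b t hA ha ht hab hb hV hAV hne
  have hs1 : 1 ≤ s := hs₀.trans hs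
  have ht9 : 9 ≤ t := by nlinarith
  have hnt : (0 : ℤ) ≤ n * t := by positivity
  refine expl_ge (V := V) (P := fun m => 2 * (n : ℤ) + 3 ≤ |m|) hV (η := η)
    (A := {h | Disjoint (CluL 0 Vᶜ h) (lay A (a + (2 * n + 5) * t) (b - (2 * n + 5) * t))})
    (B := {h | Disjoint (RV V {x | 2 * (n : ℤ) + 3 ≤ |h x|}) (lay A a b)})
    (c := c') (fun x _ y _ hxy => fib_event (P := fun m => 2 * (n : ℤ) + 3 ≤ |m|)
      (Q := fun C => Disjoint C _) hxy)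
    (fun h hh hhB => ?_)
  set V' := rem V (fun m => 2 * (n : ℤ) + 3 ≤ |m|) h with hV'
  have hlay : lay A (a + 1) (b - 1) ⊆ V' := lay_rem hhB
  have := h2 s hs q A V' h (a + 1) (b - 1) t hA (by linarith) ht (by nlinarith) (by linarith)
    (rem_finite hV) hlay ⟨h, self_mem_Cx hh (rem_sub _ _ _)⟩ (fun y hy => by
      obtain ⟨-, hy2, -⟩ := ebd_rem hy
      have e2 := hh.1 y
      have e3 : |h y| < 2 * n + 3 := lt_of_not_ge hy2
      rw [abs_lt] at e3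
      obtain ⟨i, hi⟩ := e2
      omega)
  refine this.trans (Pr_mono fun g hg hgd => ?_)
  rw [mem_ofPred_eq] at hgd ⊢
  refine Set.disjoint_of_subset (CluL_mono (Set.compl_subset_compl.2 (rem_sub _ _ _)) g)
    (lay_mono A (by nlinarith) (by nlinarith)) hgd

end Vale.Agent.P153.R2.F2A
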