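import Vale.Agent.P153.R2.F2A.Arm
import Vale.Agent.P153.R2.FKGK.Box
import Vale.Agent.P153.R2.F2A.Ord

/-!
# P153-R2, block F2: the one-arm bound

`s_onearm : S_onearm`: with the shield `Sh` inside, the probability of `h = η` on `S` for arbitrary
exact data off `V ⊇ thk S (3 r)` is at most a constant times the one for free data in `thk S r`.
-/

namespace Vale.Agent.P153.R2.F2A

open Set Relation
open Vale.Agent.P153 Vale.Agent.P153.R2
open Vale.Agent.P153.Topo (Conn)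
open Vale.Agent.P153.R2.F2 (thk NoCr Cx RV Bdd OneS)
open scoped Classical

variable {V W G S T κ : Set Pt} {I J : Pt → Set ℤ} {η ξ : Hg}

/-! ### Comparison of free laws -/

/-- The vertices of the edges between `G` and its complement. -/
def bdy (G : Set Pt) : Set Pt := {x | (x ∈ G ∧ ∃ y, y ∉ G ∧ Adj x y) ∨ (x ∉ G ∧ ∃ y ∈ G, Adj x y)}

theorem Clo_eq (G : Set Pt) : Clo G = {h | ∀ x ∈ bdy G, |h x - 0| = 1} := by
  ext h
  constructor
  · rintro hh x (⟨hx, y, hy, hxy⟩ | ⟨hx, y, hy, hxy⟩)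
    · rw [sub_zero]; exact (hh x hx y hy hxy).1
    · rw [sub_zero]; exact (hh y hy x hx (Topo.adj_symm hxy)).2
  · intro hh x hx y hy hxy
    have h1 := hh x (Or.inl ⟨hx, y, hy, hxy⟩)
    have h2 := hh y (Or.inr ⟨hy, x, hx, Topo.adj_symm hxy⟩)
    rw [sub_zero] at h1 h2
    exact ⟨h1, h2⟩

theorem nb_mono {A B : Set Pt} (h : A ⊆ B) : nb A ⊆ nb B := by
  rintro x (hx | ⟨hx, y, hy, hyx⟩)
  · exact Or.inl (h hx)
  · exact (Tr.mem_nb_of_left (h hy) hyx).2

theorem mem_nb_adj {A : Set Pt} {x y : Pt} (hx : x ∈ A) (hxy : Adj x y) : y ∈ nb A :=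
  (Tr.mem_nb_of_left hx hxy).2

theorem frd_cases (V : Set Pt) (x : Pt) : x ∈ nb V ∨ frd V 0 x = {1} := by
  by_cases h1 : x ∈ V
  · exact Or.inl (Or.inl h1)
  · by_cases h2 : x ∈ ebd V
    · exact Or.inl (Or.inr h2)
    · right; rw [frd_off h1 h2]; rfl

/-- The probability that `κ` is closed is larger in the smaller domain. -/
theorem clo_le (hV : V.Finite) (hWV : W ⊆ V) (hWG : nb W ⊆ G) (hκ : κ ⊆ W) :
    Pr (Cfg V (frd V 0) ∩ Clo G) (Clo κ) ≤ Pr (Cfg W (frd W 0)) (Clo κ) := by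
  set J₁ : Pt → Set ℤ := cns (frd V 0) (bdy G) (fun _ => {a | |a - 0| = 1}) with hJ₁
  set J₂ : Pt → Set ℤ := fun x => if x ∈ W then univ else if x ∈ nb V then {0 - 1, 0 + 1} else {0 + 1}
    with hJ₂
  have hL := Lv_frd hV
  have e1 : Cfg V (frd V 0) ∩ Clo G = Cfg V J₁ := by
    rw [hJ₁, Cfg_cns, Clo_eq]
    rfl
  have sdf : ∀ x, Sd 0 1 (frd V 0 x) := by
    intro x
    by_cases h1 : x ∈ V
    · rw [frd_in h1]; exact Sd_univ 0 1
    · by_cases h2 : x ∈ ebd V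
      · rw [frd_bd h2]; exact Sd_free 0 1
      · rw [frd_off h1 h2]; exact Sd_single (by norm_num)
  have sd1 : ∀ x, Sd 0 1 (J₁ x) := by
    intro x
    rw [hJ₁]
    unfold cns
    split_ifs
    · exact (sdf x).inter (fun n => n = 1)
    · exact sdf x
  have hW1 : ∀ x ∈ W, J₁ x = univ := by
    intro x hx
    rw [hJ₁]
    unfold cns
    rw [if_neg, frd_in (hWV hx)]
    rintro (⟨h1, y, hy, hxy⟩ | ⟨h1, -⟩)
    · exact hy (hWG (mem_nb_adj hx hxy))
    · exact h1 (hWG (Or.inl hx))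
  have hoff : ∀ x, x ∉ nb V → J₁ x = {0 + 1} := by
    intro x hx
    rw [hJ₁]
    unfold cns
    have h1 := (frd_cases V x).resolve_left hx
    split_ifs
    · rw [h1]
      ext a
      simp only [mem_inter_iff, mem_singleton_iff, mem_ofPred_eq, zero_add, sub_zero]
      constructor
      · exact fun h => h.1
      · rintro rfl
        exact ⟨rfl, abs_one⟩
    · rw [h1]; rfl
  have hJ2off : ∀ x, x ∉ nb V → J₂ x = {0 + 1} := by
    intro x hx
    rw [hJ₂]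
    simp only
    rw [if_neg (fun h => hx (Or.inl (hWV h))), if_neg hx]
  have dat1 : Dat V J₁ := by
    refine ⟨hV, fun x hx => ?_, (Dat_frd hV 0).cof.subset fun x hx h1 => hx ?_⟩
    · rw [hJ₁]
      unfold cns
      split_ifs
      · exact ((Dat_frd hV 0).bdd x hx).inter_of_left _
      · exact (Dat_frd hV 0).bdd x hx
    · rw [hJ₁]
      unfold cns
      split_ifs
      · exact h1.anti inter_subset_left
      · exact h1
  have dat2 : Dat V J₂ := by
    refine ⟨hV, fun x hx => ?_, (nb_finite hV).subset fun x hx => ?_⟩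
    · rw [hJ₂]
      simp only
      rw [if_neg fun h => hx (hWV h)]
      split_ifs <;> exact Set.toFinite _
    · by_contra h1
      refine hx ?_
      rw [hJ2off x h1]
      exact Set.subsingleton_singleton
  have one2 : one ∈ Cfg V J₂ := by
    refine ⟨fun _ => odd_one, fun x => ?_, fun x _ y _ => by simp [one]⟩
    show (1 : ℤ) ∈ J₂ x
    rw [hJ₂]
    simp only
    split_ifs
    · exact Set.mem_univ _
    · simp
    · simp
  have one1 : one ∈ Cfg V J₁ := by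
    rw [← e1]
    exact ⟨one_mem V, one_clo G⟩
  have cmp : Cmp V J₂ J₁ 0 1 := by
    refine ⟨Even.zero, Or.inl rfl, dat2, dat1, (nb_finite hV).subset fun x hx => ?_, ⟨one, one2⟩,
      ⟨one, one1⟩, fun x => Or.inl ?_⟩
    · by_contra h1
      refine hx ?_
      rw [hJ2off x h1, hoff x h1]
    · by_cases h1 : x ∈ W
      · have : J₂ x = univ := by rw [hJ₂]; simp only; rw [if_pos h1]
        rw [this, hW1 x h1]
        exact SdLe.refl (Sd_univ 0 1)
      · by_cases h2 : x ∈ nb V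
        · have : J₂ x = {0 - 1, 0 + 1} := by rw [hJ₂]; simp only; rw [if_neg h1, if_pos h2]
          rw [this]
          exact SdLe_free Even.zero (Or.inl rfl) (sd1 x)
        · rw [hJ2off x h2, hoff x h2]
          exact SdLe.refl (Sd_single (by norm_num))
  have key := md_Pr_anti0 cmp (CloD_lower κ)
  have f1 := Cfg_finite dat1
  have f2 := Cfg_finite dat2
  have k1 : Pr (Cfg V J₁) {g | md 0 g ∈ CloD κ} = Pr (Cfg V J₁) (Clo κ) :=
    Pr_congr fun g hg => mem_CloD hg κ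
  have k2 : Pr (Cfg V J₂) {g | md 0 g ∈ CloD κ} = Pr (Cfg V J₂) (Clo κ) :=
    Pr_congr fun g hg => mem_CloD hg κ
  rw [k1, k2] at key
  rw [e1]
  refine key.trans_eq ?_
  rw [Pr_eq_Ex f2, Pr_eq_Ex (Cfg_finite (Dat_frd (hV.subset hWV) 0))]
  refine Ex_box hWV dat2 Even.zero (fun x hx => ?_) (fun x hx hxW => ?_) ⟨one, one2⟩
    fun a b hab => ?_
  · rw [hJ₂]; simp only; rw [if_pos hx]
  · rw [hJ₂]; simp only; rw [if_neg hxW, if_pos hx]
  · have h3 : ∀ a b : Hg, (∀ x ∈ nb W, a x = b x) → a ∈ Clo κ → b ∈ Clo κ := by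
      intro a b hab ha x hx y hy hxy
      rw [← hab x (Or.inl (hκ hx)), ← hab y (mem_nb_adj (hκ hx) hxy)]
      exact ha x hx y hy hxy
    unfold ind
    by_cases h4 : a ∈ Clo κ
    · rw [if_pos h4, if_pos (h3 a b hab h4)]
    · rw [if_neg h4, if_neg fun h5 => h4 (h3 b a (fun x hx => (hab x hx).symm) h5)]

theorem ind_le {α : Type*} {A B : Set α} {a : α} (h : a ∈ A → a ∈ B) : ind A a ≤ ind B a := by
  unfold ind
  by_cases h1 : a ∈ A
  · rw [if_pos h1, if_pos (h h1)]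
  · rw [if_neg h1]; split_ifs <;> norm_num

/-! ### The inner event -/

/-- `h = η` on `S` and the cluster of `S` is confined in `T`. -/
def inn (S T : Set Pt) (η : Hg) : Set Hg := {g | g ∈ evS S η ∧ CluL 0 S g ⊆ T}

theorem inn_congr (hST : S ⊆ T) {a b : Hg} (hab : ∀ x ∈ nb T, a x = b x) (ha : a ∈ inn S T η) :
    b ∈ inn S T η := by
  obtain ⟨h1, h2⟩ := ha
  refine ⟨fun x hx => by rw [← hab x (Or.inl (hST hx))]; exact h1 x hx, ?_⟩
  have h3 : CluL 0 S b = CluL 0 S a := by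
    refine clu_iff.2 ⟨subset_CluL S a, fun x hx y hy hxy => ?_, Tk_congr (fun x hx =>
      hab x (Or.inl (h2 hx))) (Tk_CluL S a)⟩
    rw [← hab x (Or.inl (h2 hx)), ← hab y (mem_nb_adj (h2 hx) hxy)]
    exact Clo_CluL S a x hx y hy hxy
  rw [h3]
  exact h2

theorem ind_inn_congr (hST : S ⊆ T) {a b : Hg} (hab : ∀ x ∈ nb T, a x = b x) :
    ind (inn S T η) a = ind (inn S T η) b := by
  unfold ind
  by_cases h1 : a ∈ inn S T η
  · rw [if_pos h1, if_pos (inn_congr hST hab h1)]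
  · rw [if_neg h1, if_neg fun h2 => h1 (inn_congr hST (fun x hx => (hab x hx).symm) h2)]

/-- The confined event has a larger probability in the smaller domain. -/
theorem inn_le (hV : V.Finite) (hWV : W ⊆ V) (hWG : nb W ⊆ G) (hTW : T ⊆ W) (hTG : nb T ⊆ G) :
    Pr (Cfg V (frd V 0) ∩ Clo G) (inn S T η) ≤ Pr (Cfg W (frd W 0)) (inn S T η) := by
  have hW : W.Finite := hV.subset hWV
  have key := inner_le (Dat_frd hV 0) (Dat_frd hW 0) (D := Clo G) (D' := univ) (S := S) (T := T)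
    (hW.subset hTW)
    (fun a ha b hab x hx y hy hxy => by
      have h1 : x ∉ T := fun h => hy (hTG (mem_nb_adj h hxy))
      have h2 : y ∉ T := fun h => hy (hTG (Or.inl h))
      rw [hab x h1, hab y h2]
      exact ha x hx y hy hxy)
    (OffDet_univ T) (fun x hx => by rw [frd_in (hWV (hTW hx)), frd_in (hTW hx)])
    (hTW.trans hWV) hTW η (c := 1) zero_le_one
    (fun κ _ hκT => by
      rw [one_mul, inter_univ]
      exact clo_le hV hWV hWG (hκT.trans hTW))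
  rw [one_mul, inter_univ] at key
  exact key

/-- Exploration of the cluster of the complement of `V`: arbitrary data against free data in `W`. -/
theorem outer_le (hV : V.Finite) (hWV : W ⊆ V) (hST : S ⊆ T) (hTW : T ⊆ W)
    (hne : (Cx V ξ).Nonempty) :
    Pr (Cx V ξ) (inn S T η ∩ {h | Disjoint (CluL 0 Vᶜ h) (nb W)}) ≤
      Pr (Cfg W (frd W 0)) (inn S T η) := by
  have dI : Dat V (exa V ξ) := F2.dat_exa hV ξ
  have fin : (Cx V ξ).Finite := Cfg_finite dI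
  set m : ℝ := Pr (Cfg W (frd W 0)) (inn S T η) with hm
  rw [Pr_eq_Ex fin, ← Ex_const fin hne m]
  refine Ex_le_of_fiber fin (fmap Vᶜ) _ _ (fun _ _ _ _ _ => rfl) fun a ha => ?_
  rw [fib_eq_fmap]
  have hm0 : 0 ≤ m := Pr_nonneg _ _
  by_cases hd : Disjoint (CluL 0 Vᶜ a) (nb W)
  · have hWG : nb W ⊆ (CluL 0 Vᶜ a)ᶜ := fun x hx h => Set.disjoint_left.1 hd h hx
    have hTG : nb T ⊆ (CluL 0 Vᶜ a)ᶜ := (nb_mono hTW).trans hWG
    have h1 : Ex (Cx V ξ ∩ fib Vᶜ a) (ind (inn S T η ∩ {h | Disjoint (CluL 0 Vᶜ h) (nb W)})) ≤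
        Ex (Cx V ξ ∩ fib Vᶜ a) (ind (inn S T η)) := by
      refine Ex_mono fun b _ => ?_
      unfold ind
      by_cases h2 : b ∈ inn S T η
      · rw [if_pos h2]; split_ifs <;> norm_num
      · rw [if_neg fun h3 => h2 h3.1, if_neg h2]
    refine h1.trans ?_
    rw [fib_Ex dI (Dat_frd hV 0) (A := Vᶜ) (fun x hx => F2.exa_in (not_not.1 hx))
      (fun x hx => frd_in (not_not.1 hx) 0) (by rw [compl_compl]) (by rw [compl_compl]) ha
      ⟨one, one_mem V, one_clo _⟩]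
    have h2 : ∀ b : Hg, ind (inn S T η) (glu (CluL 0 Vᶜ a)ᶜ b a) = ind (inn S T η) b := fun b =>
      ind_inn_congr hST fun x hx => glu_in (hTG hx)
    rw [Ex_congr fun b _ => h2 b,
      ← Pr_eq_Ex ((Cfg_finite (Dat_frd hV 0)).inter_of_left _)]
    exact inn_le hV hWV hWG hTW hTG
  · have e : Ex (Cx V ξ ∩ fib Vᶜ a) (ind (inn S T η ∩ {h | Disjoint (CluL 0 Vᶜ h) (nb W)})) =
        Ex (Cx V ξ ∩ fib Vᶜ a) (fun _ => 0) := by
      refine Ex_congr fun b hb => ?_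
      unfold ind
      rw [if_neg]
      rintro ⟨-, h3⟩
      have h4 : Disjoint (CluL 0 Vᶜ b) (nb W) := h3
      rw [hb.2.1] at h4
      exact hd h4
    rw [e, Ex_zero]
    exact hm0

/-! ### Geometry of the neighbourhoods -/

theorem thk_mono {a b : ℤ} (h : a ≤ b) (A : Set Pt) : thk A a ⊆ thk A b :=
  fun _ ⟨c, hc, h1, h2⟩ => ⟨c, hc, h1.trans h, h2.trans h⟩

theorem sub_thk {a : ℤ} (h : 0 ≤ a) (A : Set Pt) : A ⊆ thk A a := fun x hx =>
  ⟨x, hx, by simpa using h, by simpa using h⟩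

theorem thk_adj {a : ℤ} {A : Set Pt} {x y : Pt} (hx : x ∈ thk A a) (hxy : Adj x y) :
    y ∈ thk A (a + 1) := by
  obtain ⟨c, hc, h1, h2⟩ := hx
  refine ⟨c, hc, ?_, ?_⟩ <;> rw [Topo.adj_iff] at hxy <;> rw [abs_le] at * <;> omega

theorem nb_thk {a : ℤ} {A : Set Pt} : nb (thk A a) ⊆ thk A (a + 1) := by
  rintro x (hx | ⟨-, y, hy, hyx⟩)
  · exact thk_mono (by omega) A hx
  · exact thk_adj hy hyx

theorem thk_finite {a : ℤ} {A : Set Pt} (hA : A.Finite) : (thk A a).Finite := by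
  refine (hA.biUnion fun c _ => bx_fin c a).subset ?_
  rintro x ⟨c, hc, h1, h2⟩
  exact Set.mem_biUnion hc ⟨h1, h2⟩
where
  bx_fin (p : Pt) (r : ℤ) : (bx p r).Finite := by
    refine ((Set.finite_Icc (p.1 - r) (p.1 + r)).prod
      (Set.finite_Icc (p.2 - r) (p.2 + r))).subset ?_
    rintro x ⟨h1, h2⟩
    rw [abs_le] at h1 h2
    simp only [Set.mem_prod, Set.mem_Icc]
    omega

/-- A cluster which starts in `thk A a` and avoids the layer `thk A b \ thk A a` stays in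
`thk A a`. -/
theorem clu_in {A B : Set Pt} {h : Hg} {a b : ℤ} (hab : a + 1 ≤ b) (hB : B ⊆ thk A a)
    (hd : Disjoint (CluL 0 B h) (thk A b \ thk A a)) : CluL 0 B h ⊆ thk A a := by
  rintro y ⟨x, hx, hp⟩
  induction hp with
  | refl => exact hB hx
  | tail h1 h2 ih =>
    by_contra hy
    refine Set.disjoint_left.1 hd (⟨x, hx, h1.tail h2⟩ : _ ∈ CluL 0 B h) ⟨?_, hy⟩
    exact thk_mono hab A (thk_adj ih h2.1)

/-- A cluster which starts off `thk A b` and avoids the layer stays off `thk A b`. -/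
theorem clu_out {A B : Set Pt} {h : Hg} {a b : ℤ} (hab : a + 1 ≤ b)
    (hB : Disjoint B (thk A b)) (hd : Disjoint (CluL 0 B h) (thk A b \ thk A a)) :
    Disjoint (CluL 0 B h) (thk A b) := by
  rw [Set.disjoint_left]
  rintro y ⟨x, hx, hp⟩
  induction hp with
  | refl => exact Set.disjoint_left.1 hB hx
  | @tail u v h1 h2 ih =>
    intro hy
    by_cases hya : v ∈ thk A a
    · exact ih (thk_mono hab A (thk_adj hya (Topo.adj_symm h2.1)))
    · exact Set.disjoint_left.1 hd (⟨x, hx, h1.tail h2⟩ : _ ∈ CluL 0 B h) ⟨hy, hya⟩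

/-- **One-arm bound**, `k` independent of `ρ`. -/
theorem onearm_k {R s₀ : ℤ} {c : ℝ} (hR : 1 ≤ R) (hs₀ : 1 ≤ s₀) (hc : 0 < c) (hone : OneS R s₀ c)
    (L : ℕ) : ∃ k : ℤ, 1 ≤ k ∧ ∀ ρ : ℤ, ∃ C : ℝ, 0 < C ∧ ∀ s, s₀ ≤ s → ∀ (q : Pt) (S V : Set Pt)
    (η ξ : Hg) (r : ℤ), S ⊆ bx q (ρ * s) → (∀ x ∈ S, |η x| + 2 ≤ 2 * L + 1) → k * s ≤ r →
    3 * r ≤ ρ * s → V.Finite → thk S (3 * r) ⊆ V → (Cx V ξ).Nonempty →
    Pr (Cx V ξ) (evS S η ∩ Sh L S (2 * r) (3 * r - 1)) ≤ C * nu (thk S r) S η := by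
  set k : ℤ := 2 * L + 5 with hk
  refine ⟨k * (2 * R + 7) + 2, by nlinarith [Int.natCast_nonneg L], fun ρ => ?_⟩
  obtain ⟨c', hc', h1⟩ := r0sh_k hR hs₀ hc hone ρ L
  refine ⟨c'⁻¹, inv_pos.2 hc', fun s hs q S V η ξ r hS hη hkr hr hV hthk hne => ?_⟩
  have hs1 : 1 ≤ s := hs₀.trans hs
  set t : ℤ := (2 * R + 7) * s with ht
  have ht0 : 0 ≤ t := by rw [ht]; nlinarith
  have hkt0 : 0 ≤ (k : ℤ) * t := mul_nonneg (by rw [hk]; positivity) ht0
  have hkt : (k : ℤ) * t + 2 ≤ r := by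
    have : (k : ℤ) * t + 2 * s ≤ r := by
      refine le_trans (le_of_eq ?_) hkr
      rw [ht]; ring
    omega
  have hr0 : 0 ≤ r := by omega
  have hSf : S.Finite := by
    refine Set.Finite.subset ?_ hS
    refine ((Set.finite_Icc (q.1 - ρ * s) (q.1 + ρ * s)).prod
      (Set.finite_Icc (q.2 - ρ * s) (q.2 + ρ * s))).subset ?_
    rintro x ⟨h3, h4⟩
    rw [abs_le] at h3 h4
    simp only [Set.mem_prod, Set.mem_Icc]
    omega
  have fin := F2.Cx_finite hV ξ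
  have hnu0 : 0 ≤ nu (thk S r) S η := Pr_nonneg _ _
  rcases (Cx V ξ ∩ evS S η).eq_empty_or_nonempty with h0 | ⟨h₀, hh₀, hh₀S⟩
  · have : Pr (Cx V ξ) (evS S η ∩ Sh L S (2 * r) (3 * r - 1)) = 0 := by
      unfold Pr
      rw [← inter_assoc, h0]
      simp
    rw [this]
    exact mul_nonneg (inv_pos.2 hc').le hnu0
  have hSV : S ⊆ V := (sub_thk (by omega) S).trans hthk
  have e1 : Cx V ξ ∩ evS S η = Cx (V \ S) h₀ := by
    rw [← F2.Cx_agree hh₀ (V' := V \ S) Set.sdiff_subset]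
    ext g
    constructor
    · rintro ⟨hg, hgS⟩
      refine ⟨hg, fun x hx => ?_⟩
      by_cases hxV : x ∈ V
      · have hxS : x ∈ S := by
          by_contra h2
          exact hx ⟨hxV, h2⟩
        rw [hgS x hxS, hh₀S x hxS]
      · rw [F2.Cx_out hg hxV, F2.Cx_out hh₀ hxV]
    · rintro ⟨hg, hgS⟩
      refine ⟨hg, fun x hx => ?_⟩
      rw [hgS x fun h2 => h2.2 hx, hh₀S x hx]
  have hne' : (Cx (V \ S) h₀).Nonempty := by rw [← e1]; exact ⟨h₀, hh₀, hh₀S⟩
  have key := h1 s hs q S (V \ S) h₀ 0 (2 * r) t hS le_rfl le_rfl (by rw [← hk]; omega) (by omega)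
    (hV.subset Set.sdiff_subset)
    (fun x hx => ⟨hthk (thk_mono (by omega) S hx.1), fun h2 => hx.2 (sub_thk le_rfl S h2)⟩) hne'
  rw [zero_add, ← hk] at key
  -- the shield
  have cl1 : ∀ h ∈ Cx V ξ ∩ evS S η, h ∈ Sh L S (2 * r) (3 * r - 1) →
      Disjoint (RV (V \ S) {x | 2 * (L : ℤ) + 3 ≤ |h x|}) (thk S (2 * r) \ thk S 0) := by
    rintro h ⟨hh, hhS⟩ hsh
    set U : Set Pt := {x | 2 * (L : ℤ) + 3 ≤ |h x|} with hU
    have hsh' : NoCr U (thk S (2 * r)) (thk S (3 * r - 1)) := hsh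
    have P : ∀ y ∈ RV (V \ S) U, y ∈ (V \ S)ᶜ ∨ ∃ w, w ∉ thk S (3 * r - 1) ∧ Conn U w y := by
      intro y hy
      refine F2.RV_ind (fun y => y ∈ (V \ S)ᶜ ∨ ∃ w, w ∉ thk S (3 * r - 1) ∧ Conn U w y)
        (fun x hx => Or.inl hx) (fun u v _ ih huv hv => ?_) hy
      by_cases hvV : v ∈ V \ S
      · right
        have hvU : v ∈ U := hv.resolve_left fun h2 => h2 hvV
        rcases ih with hu | ⟨w, hw, hwu⟩
        · by_cases huV : u ∈ V
          · exfalso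
            have huS : u ∈ S := by
              by_contra h2
              exact hu ⟨huV, h2⟩
            have h3 := hh.2.2 u huV v huv
            have h4 := hη u huS
            rw [hhS u huS] at h3
            have h5 : 2 * (L : ℤ) + 3 ≤ |h v| := hvU
            have h6 := abs_sub_abs_le_abs_sub (h v) (η u)
            rw [abs_sub_comm] at h3
            omega
          · refine ⟨v, fun h2 => huV (hthk ?_), Conn.refl hvU⟩
            have := thk_adj h2 (Topo.adj_symm huv)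
            rwa [show 3 * r - 1 + 1 = 3 * r by ring] at this
        · exact ⟨w, hw, hwu.tail huv hvU⟩
      · exact Or.inl hvV
    rw [Set.disjoint_left]
    rintro y hy ⟨hy1, hy2⟩
    rcases P y hy with h2 | ⟨w, hw, hwy⟩
    · refine h2 ⟨hthk (thk_mono (by omega) S hy1), fun h3 => hy2 (sub_thk le_rfl S h3)⟩
    · exact hsh' y hy1 w hw hwy.symm
  -- confinement
  set T : Set Pt := thk S (k * t) with hT
  set W : Set Pt := thk S r with hW
  have hWV : W ⊆ V := (thk_mono (by omega) S).trans hthk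
  have hTW : T ⊆ W := thk_mono (by omega) S
  have hST : S ⊆ T := sub_thk hkt0 S
  have cl2 : ∀ h ∈ Cx V ξ ∩ evS S η,
      Disjoint (CluL 0 (V \ S)ᶜ h) (thk S (2 * r - k * t) \ thk S (k * t)) →
      h ∈ inn S T η ∩ {h | Disjoint (CluL 0 Vᶜ h) (nb W)} := by
    rintro h ⟨hh, hhS⟩ hd
    have s10 : S ⊆ (V \ S)ᶜ := fun x hx h2 => h2.2 hx
    have s20 : Vᶜ ⊆ (V \ S)ᶜ := fun x hx h2 => hx h2.1
    have s1 : CluL 0 S h ⊆ CluL 0 (V \ S)ᶜ h := CluL_mono s10 h
    have s2 : CluL 0 Vᶜ h ⊆ CluL 0 (V \ S)ᶜ h := CluL_mono s20 h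
    refine ⟨⟨hhS, clu_in (by omega) hST (hd.mono_left s1)⟩, ?_⟩
    have h3 := clu_out (A := S) (B := Vᶜ) (h := h) (a := k * t) (b := 2 * r - k * t) (by omega)
      (by
        rw [Set.disjoint_left]
        intro x hx h4
        exact hx (hthk (thk_mono (by omega) S h4))) (hd.mono_left s2)
    exact h3.mono_right (nb_thk.trans (thk_mono (by omega) S))
  -- conclusion
  have k1 : Pr (Cx V ξ) (evS S η ∩ Sh L S (2 * r) (3 * r - 1)) ≤
      Pr (Cx V ξ) (evS S η) * Pr (Cx (V \ S) h₀)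
        {h | Disjoint (RV (V \ S) {x | 2 * (L : ℤ) + 3 ≤ |h x|}) (thk S (2 * r) \ thk S 0)} := by
    rw [← e1, Pr_eq_Ex (fin.inter_of_left _), Ex_inter_mul fin, Pr_eq_Ex fin]
    refine Ex_mono fun h hh => ?_
    rw [F2.ind_mul]
    exact ind_le fun h2 => ⟨h2.1, cl1 h ⟨hh, h2.1⟩ h2.2⟩
  have k2 : Pr (Cx V ξ) (evS S η) * Pr (Cx (V \ S) h₀)
      {h | Disjoint (RV (V \ S) {x | 2 * (L : ℤ) + 3 ≤ |h x|}) (thk S (2 * r) \ thk S 0) ∧
        Disjoint (CluL 0 (V \ S)ᶜ h) (thk S (2 * r - k * t) \ thk S (k * t))} ≤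
      Pr (Cx V ξ) (inn S T η ∩ {h | Disjoint (CluL 0 Vᶜ h) (nb W)}) := by
    rw [← e1, Pr_eq_Ex (fin.inter_of_left _), Ex_inter_mul fin, Pr_eq_Ex fin]
    refine Ex_mono fun h hh => ?_
    rw [F2.ind_mul]
    exact ind_le fun h2 => cl2 h ⟨hh, h2.1⟩ h2.2.2
  have k3 := outer_le (ξ := ξ) (η := η) hV hWV hST hTW hne
  have k4 : Pr (Cfg W (frd W 0)) (inn S T η) ≤ nu W S η := Pr_mono fun h _ hh => hh.1
  have hp : 0 ≤ Pr (Cx V ξ) (evS S η) := Pr_nonneg _ _
  have k5 := mul_le_mul_of_nonneg_left key hp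
  rw [inv_mul_eq_div, le_div_iff₀ hc']
  calc _ ≤ (Pr (Cx V ξ) (evS S η) * Pr (Cx (V \ S) h₀)
        {h | Disjoint (RV (V \ S) {x | 2 * (L : ℤ) + 3 ≤ |h x|}) (thk S (2 * r) \ thk S 0)}) * c' :=
        mul_le_mul_of_nonneg_right k1 hc'.le
    _ = Pr (Cx V ξ) (evS S η) * (c' * Pr (Cx (V \ S) h₀)
        {h | Disjoint (RV (V \ S) {x | 2 * (L : ℤ) + 3 ≤ |h x|}) (thk S (2 * r) \ thk S 0)}) := by
        ring
    _ ≤ _ := k5.trans (k2.trans (k3.trans k4))

/-- **One-arm bound.** -/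
theorem s_onearm : S_onearm := by
  intro R s₀ c hR hs₀ hc hone ρ L
  obtain ⟨k, hk, h⟩ := onearm_k hR hs₀ hc hone L
  obtain ⟨C, hC, h1⟩ := h ρ
  exact ⟨C, k, hC, hk, h1⟩

end Vale.Agent.P153.R2.F2A
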