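import Vale.Agent.P153.R2.FKGK.Pos

/-!
# P153-R2, block F2: exploration of open clusters (level `0`)

* `Clo K`: all the edges between `K` and its complement are closed at level `0`.
* `sep`: given `Clo K`, the heights on `K` and off `K` are independent.
* `clu_iff`: the cluster of `A` is `κ` iff `Clo κ` and an event determined by the heights on `κ`.
* `fib_Ex`: the conditional law given the cluster of `A` and the heights on it.
-/

namespace Vale.Agent.P153.R2.F2A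

open Set Relation
open Vale.Agent.P153 Vale.Agent.P153.R2
open Vale.Agent.P153.Topo (Conn)
open scoped Classical

variable {V V' K : Set Pt} {I J : Pt → Set ℤ}

/-- All the edges between `K` and its complement are closed at level `0`. -/
def Clo (K : Set Pt) : Set Hg := {h | ∀ x ∈ K, ∀ y, y ∉ K → Adj x y → |h x| = 1 ∧ |h y| = 1}

theorem Clo_compl (K : Set Pt) : Clo Kᶜ = Clo K := by
  ext h
  constructor
  · intro hh x hx y hy hxy
    have := hh y hy x (fun h1 => h1 hx) (Topo.adj_symm hxy)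
    exact ⟨this.2, this.1⟩
  · intro hh x hx y hy hxy
    have hy' : y ∈ K := not_not.1 hy
    have := hh y hy' x hx (Topo.adj_symm hxy)
    exact ⟨this.2, this.1⟩

theorem glu_mem_clo (hIJ : ∀ x ∈ K, I x = J x)
    (hE : ∀ x ∈ K, ∀ y ∈ K, Adj x y → x ∈ V → x ∈ V' ∨ y ∈ V') {a b : Hg}
    (ha : a ∈ Cfg V I) (hb : b ∈ Cfg V' J) (hca : a ∈ Clo K) (hcb : b ∈ Clo K) :
    glu K b a ∈ Cfg V I ∧ glu K b a ∈ Clo K := by
  have h2 : ∀ m n : ℤ, |m| = 1 → |n| = 1 → |m - n| ≤ 2 := fun m n hm hn => by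
    have := abs_sub m n
    omega
  refine ⟨⟨fun x => ?_, fun x => ?_, fun x hx y hxy => ?_⟩, fun x hx y hy hxy => ?_⟩
  · by_cases h1 : x ∈ K
    · rw [glu_in h1]; exact hb.1 x
    · rw [glu_out h1]; exact ha.1 x
  · by_cases h1 : x ∈ K
    · rw [glu_in h1, hIJ x h1]; exact hb.2.1 x
    · rw [glu_out h1]; exact ha.2.1 x
  · by_cases h1 : x ∈ K
    · by_cases h3 : y ∈ K
      · rw [glu_in h1, glu_in h3]
        rcases hE x h1 y h3 hxy hx with h4 | h4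
        · exact hb.2.2 x h4 y hxy
        · rw [abs_sub_comm]
          exact hb.2.2 y h4 x (Topo.adj_symm hxy)
      · rw [glu_in h1, glu_out h3]
        exact h2 _ _ (hcb x h1 y h3 hxy).1 (hca x h1 y h3 hxy).2
    · by_cases h3 : y ∈ K
      · rw [glu_out h1, glu_in h3]
        exact h2 _ _ (hca y h3 x h1 (Topo.adj_symm hxy)).2 (hcb y h3 x h1 (Topo.adj_symm hxy)).1
      · rw [glu_out h1, glu_out h3]
        exact ha.2.2 x hx y hxy
  · rw [glu_in hx, glu_out hy]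
    exact ⟨(hcb x hx y hy hxy).1, (hca x hx y hy hxy).2⟩

/-- Given that the edges between `K` and its complement are closed, the law on `K` does not depend
on what happens off `K`. -/
theorem sep (dI : Dat V I) (dJ : Dat V' J) (hIJ : ∀ x ∈ K, I x = J x)
    (hE : ∀ x ∈ K, ∀ y ∈ K, Adj x y → x ∈ V → x ∈ V' ∨ y ∈ V')
    (hE' : ∀ x ∈ K, ∀ y ∈ K, Adj x y → x ∈ V' → x ∈ V ∨ y ∈ V)
    {A A' : Set Hg} (hA : OffDet K A) (hA' : OffDet K A') (hn : (Cfg V I ∩ (Clo K ∩ A)).Nonempty)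
    (hn' : (Cfg V' J ∩ (Clo K ∩ A')).Nonempty) {F : Hg → ℝ}
    (hF : ∀ a b : Hg, (∀ x ∈ K, a x = b x) → F a = F b) :
    Ex (Cfg V I ∩ (Clo K ∩ A)) F = Ex (Cfg V' J ∩ (Clo K ∩ A')) F := by
  have key : ∀ a ∈ Cfg V I ∩ (Clo K ∩ A), ∀ b ∈ Cfg V' J ∩ (Clo K ∩ A'),
      glu K b a ∈ Cfg V I ∩ (Clo K ∩ A) ∧ glu K a b ∈ Cfg V' J ∩ (Clo K ∩ A') := by
    intro a ha b hb
    have h1 := glu_mem_clo hIJ hE ha.1 hb.1 ha.2.1 hb.2.1
    have h2 := glu_mem_clo (fun x hx => (hIJ x hx).symm) hE' hb.1 ha.1 hb.2.1 ha.2.1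
    exact ⟨⟨h1.1, h1.2, hA a ha.2.2 _ fun x hx => glu_out hx⟩,
      ⟨h2.1, h2.2, hA' b hb.2.2 _ fun x hx => glu_out hx⟩⟩
  refine Ex_prod_eq ((Cfg_finite dI).inter_of_left _) ((Cfg_finite dJ).inter_of_left _)
    (fun a b => glu K b a) (fun a b => glu K a b) key
    (fun a _ b _ => ⟨?_, ?_⟩) hn hn' F F (fun a _ b _ => ?_)
  · funext x
    by_cases hx : x ∈ K
    · rw [glu_in hx, glu_in hx]
    · rw [glu_out hx, glu_out hx]
  · funext x
    by_cases hx : x ∈ K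
    · rw [glu_in hx, glu_in hx]
    · rw [glu_out hx, glu_out hx]
  · exact hF _ _ fun x hx => glu_in hx

/-! ### Clusters -/

/-- Every vertex of `κ` is joined to `A` by an open path in `κ`. -/
def Tk (A κ : Set Pt) : Set Hg :=
  {h | ∀ y ∈ κ, ∃ x ∈ A, ReflTransGen (fun u v => OpL 0 h u v ∧ u ∈ κ ∧ v ∈ κ) x y}

theorem subset_CluL (A : Set Pt) (h : Hg) : A ⊆ CluL 0 A h := fun x hx => ⟨x, hx, .refl⟩

theorem CluL_mono {A B : Set Pt} (hAB : A ⊆ B) (h : Hg) : CluL 0 A h ⊆ CluL 0 B h :=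
  fun _ ⟨x, hx, hp⟩ => ⟨x, hAB hx, hp⟩

theorem CluL_step {A : Set Pt} {h : Hg} {x y : Pt} (hx : x ∈ CluL 0 A h) (hxy : OpL 0 h x y) :
    y ∈ CluL 0 A h := by
  obtain ⟨a, ha, hp⟩ := hx
  exact ⟨a, ha, hp.tail hxy⟩

theorem Clo_CluL (A : Set Pt) (h : Hg) : h ∈ Clo (CluL 0 A h) := by
  intro x hx y hy hxy
  by_contra hc
  refine hy (CluL_step hx ⟨hxy, fun h1 => hc ?_⟩)
  simpa using h1

theorem Tk_CluL (A : Set Pt) (h : Hg) : h ∈ Tk A (CluL 0 A h) := by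
  rintro y ⟨x, hx, hp⟩
  refine ⟨x, hx, ?_⟩
  induction hp with
  | refl => exact .refl
  | tail h1 h2 ih => exact ih.tail ⟨h2, ⟨x, hx, h1⟩, ⟨x, hx, h1.tail h2⟩⟩

theorem CluL_sub_of_Clo {A κ : Set Pt} {h : Hg} (hA : A ⊆ κ) (hc : h ∈ Clo κ) :
    CluL 0 A h ⊆ κ := by
  rintro y ⟨x, hx, hp⟩
  induction hp with
  | refl => exact hA hx
  | tail h1 h2 ih =>
    by_contra hy
    refine h2.2 ?_
    simpa using hc _ ih _ hy h2.1

theorem clu_iff {A κ : Set Pt} {h : Hg} :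
    CluL 0 A h = κ ↔ A ⊆ κ ∧ h ∈ Clo κ ∧ h ∈ Tk A κ := by
  constructor
  · rintro rfl
    exact ⟨subset_CluL A h, Clo_CluL A h, Tk_CluL A h⟩
  · rintro ⟨h1, h2, h3⟩
    refine Subset.antisymm (CluL_sub_of_Clo h1 h2) fun y hy => ?_
    obtain ⟨x, hx, hp⟩ := h3 y hy
    exact ⟨x, hx, ReflTransGen.mono (fun _ _ h => h.1) _ _ hp⟩

/-- `Tk` is determined by the heights on `κ`. -/
theorem Tk_congr {A κ : Set Pt} {h h' : Hg} (hh : ∀ x ∈ κ, h x = h' x) (hT : h ∈ Tk A κ) :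
    h' ∈ Tk A κ := by
  intro y hy
  obtain ⟨x, hx, hp⟩ := hT y hy
  refine ⟨x, hx, ReflTransGen.mono ?_ _ _ hp⟩
  rintro u v ⟨h1, h2, h3⟩
  refine ⟨⟨h1.1, ?_⟩, h2, h3⟩
  rw [← hh u h2, ← hh v h3]
  exact h1.2

theorem OffDet_Tk (A κ : Set Pt) : OffDet κᶜ (Tk A κ) := fun _ ha _ hb =>
  Tk_congr (fun x hx => (hb x (fun h => h hx)).symm) ha

/-- The class of `a`: same cluster of `A`, same heights on it. -/
def fib (A : Set Pt) (a : Hg) : Set Hg :=
  {b | CluL 0 A b = CluL 0 A a ∧ ∀ x ∈ CluL 0 A a, b x = a x}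

theorem fib_eq (A : Set Pt) (a : Hg) :
    fib A a = Clo (CluL 0 A a)ᶜ ∩ {b | ∀ x ∈ CluL 0 A a, b x = a x} := by
  rw [Clo_compl]
  ext b
  constructor
  · rintro ⟨h1, h2⟩
    refine ⟨?_, h2⟩
    rw [← h1]
    exact Clo_CluL A b
  · rintro ⟨h1, h2⟩
    exact ⟨clu_iff.2 ⟨subset_CluL A a, h1, Tk_congr (fun x hx => (h2 x hx).symm) (Tk_CluL A a)⟩, h2⟩

theorem fib_self (A : Set Pt) (a : Hg) : a ∈ fib A a := ⟨rfl, fun _ _ => rfl⟩

/-- The map whose fibres are the classes. -/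
noncomputable def fmap (A : Set Pt) (a : Hg) : Set Pt × Hg :=
  (CluL 0 A a, fun x => if x ∈ CluL 0 A a then a x else 0)

theorem fib_eq_fmap (A : Set Pt) (a : Hg) : {b | fmap A b = fmap A a} = fib A a := by
  ext b
  constructor
  · intro h
    have h1 : CluL 0 A b = CluL 0 A a := congrArg Prod.fst h
    refine ⟨h1, fun x hx => ?_⟩
    have h2 := congrFun (congrArg Prod.snd h) x
    unfold fmap at h2
    simp only at h2
    rw [if_pos hx, if_pos (by rw [h1]; exact hx)] at h2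
    exact h2
  · rintro ⟨h1, h2⟩
    show fmap A b = fmap A a
    unfold fmap
    rw [h1]
    refine Prod.ext rfl (funext fun x => ?_)
    simp only
    split_ifs with h3
    · exact h2 x h3
    · rfl

/-- The conditional law given the class of `a`. -/
theorem fib_Ex (dI : Dat V I) (dJ : Dat V' J) {A : Set Pt} (hI : ∀ x, x ∉ A → I x = univ)
    (hJ : ∀ x, x ∉ A → J x = univ) (hV : Aᶜ ⊆ V) (hV' : Aᶜ ⊆ V') {a : Hg} (ha : a ∈ Cfg V I)
    (hn : (Cfg V' J ∩ Clo (CluL 0 A a)ᶜ).Nonempty) (F : Hg → ℝ) :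
    Ex (Cfg V I ∩ fib A a) F =
      Ex (Cfg V' J ∩ Clo (CluL 0 A a)ᶜ) (fun b => F (glu (CluL 0 A a)ᶜ b a)) := by
  have hsub : (CluL 0 A a)ᶜ ⊆ Aᶜ := compl_subset_compl.2 (subset_CluL A a)
  have e1 : Ex (Cfg V I ∩ fib A a) F =
      Ex (Cfg V I ∩ fib A a) (fun b => F (glu (CluL 0 A a)ᶜ b a)) := by
    refine Ex_congr fun b hb => ?_
    congr 1
    funext x
    by_cases hx : x ∈ CluL 0 A a
    · have h1 : x ∉ (CluL 0 A a)ᶜ := fun h => h hx
      rw [glu_out h1]; exact hb.2.2 x hx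
    · rw [glu_in (show x ∈ (CluL 0 A a)ᶜ from hx)]
  rw [e1]
  have key := sep (K := (CluL 0 A a)ᶜ) dI dJ
    (fun x hx => by rw [hI x (hsub hx), hJ x (hsub hx)])
    (fun x hx _ _ _ _ => Or.inl (hV' (hsub hx))) (fun x hx _ _ _ _ => Or.inl (hV (hsub hx)))
    (A := {b | ∀ x ∈ CluL 0 A a, b x = a x}) (A' := univ)
    (fun c hc b hb x hx => by rw [hb x (fun h1 => h1 hx)]; exact hc x hx) (OffDet_univ _)
    ⟨a, ha, by rw [← fib_eq]; exact fib_self A a⟩ (by rwa [inter_univ])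
    (F := fun b => F (glu (CluL 0 A a)ᶜ b a)) (fun b c hbc => by
      congr 1
      funext x
      by_cases hx : x ∈ (CluL 0 A a)ᶜ
      · rw [glu_in hx, glu_in hx, hbc x hx]
      · rw [glu_out hx, glu_out hx])
  rw [inter_univ] at key
  rw [fib_eq, key]

end Vale.Agent.P153.R2.F2A
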